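import Mathlib

namespace Vale.Agent.Lib.P057

open Finset

/-- The digit set: all residues below `m/2`, and the even residues below `2m/3`. -/
def shape (m : ℕ) : Finset ℕ :=
  (range m).filter (fun x => 2 * x < m ∨ (3 * x < 2 * m ∧ 2 ∣ x))

lemma mem_shape {m x : ℕ} : x ∈ shape m ↔ x < m ∧ (2 * x < m ∨ (3 * x < 2 * m ∧ 2 ∣ x)) := by
  simp [shape]

lemma wrap_cases {m x y z : ℤ} (hx0 : 0 ≤ x) (hx : x < m) (hy0 : 0 ≤ y) (hy : y < m)
    (hz0 : 0 ≤ z) (hz : z < m) (h : m ∣ x - 2 * y + z) :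
    x - 2 * y + z = -m ∨ x - 2 * y + z = 0 ∨ x - 2 * y + z = m := by
  obtain ⟨w, hw⟩ := h
  have hm : 0 < m := by linarith
  have h1 : w < 2 := by nlinarith
  have h2 : -2 < w := by nlinarith
  have h3 : w = -1 ∨ w = 0 ∨ w = 1 := by omega
  rcases h3 with rfl | rfl | rfl
  · left; linarith
  · right; left; linarith
  · right; right; linarith

/-- Every 5-term progression modulo the odd number `m` inside `shape m` is a true progression. -/
lemma shape_true {m x0 x1 x2 x3 x4 : ℕ} (hm : m % 2 = 1)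
    (h0 : x0 ∈ shape m) (h1 : x1 ∈ shape m) (h2 : x2 ∈ shape m) (h3 : x3 ∈ shape m)
    (h4 : x4 ∈ shape m)
    (e0 : (m : ℤ) ∣ (x0 : ℤ) - 2 * x1 + x2) (e1 : (m : ℤ) ∣ (x1 : ℤ) - 2 * x2 + x3)
    (e2 : (m : ℤ) ∣ (x2 : ℤ) - 2 * x3 + x4) :
    (x0 : ℤ) - 2 * x1 + x2 = 0 ∧ (x1 : ℤ) - 2 * x2 + x3 = 0 ∧ (x2 : ℤ) - 2 * x3 + x4 = 0 := by
  rw [mem_shape] at h0 h1 h2 h3 h4
  have c0 := wrap_cases (x := x0) (y := x1) (z := x2) (by positivity) (by exact_mod_cast h0.1)
    (by positivity) (by exact_mod_cast h1.1) (by positivity) (by exact_mod_cast h2.1) e0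
  have c1 := wrap_cases (x := x1) (y := x2) (z := x3) (by positivity) (by exact_mod_cast h1.1)
    (by positivity) (by exact_mod_cast h2.1) (by positivity) (by exact_mod_cast h3.1) e1
  have c2 := wrap_cases (x := x2) (y := x3) (z := x4) (by positivity) (by exact_mod_cast h2.1)
    (by positivity) (by exact_mod_cast h3.1) (by positivity) (by exact_mod_cast h4.1) e2
  omega

/-- Digit lemma: linear relations among five integers written in base `b` with digits in `D`
descend to the digits, provided `D` has the corresponding property modulo `b`. -/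
lemma digits_rel {ι : Type*} (c0 c1 c2 c3 c4 : ι → ℤ) {b : ℕ} (hb : 0 < b) (D : Finset ℕ)
    (good : ∀ x0 x1 x2 x3 x4 : ℕ, x0 ∈ D → x1 ∈ D → x2 ∈ D → x3 ∈ D → x4 ∈ D →
      (∀ r, (b : ℤ) ∣ c0 r * x0 + c1 r * x1 + c2 r * x2 + c3 r * x3 + c4 r * x4) →
      ∀ r, c0 r * x0 + c1 r * x1 + c2 r * x2 + c3 r * x3 + c4 r * x4 = 0) :
    ∀ {n : ℕ} (x0 x1 x2 x3 x4 : Fin n → ℕ), (∀ j, x0 j ∈ D) → (∀ j, x1 j ∈ D) →
      (∀ j, x2 j ∈ D) → (∀ j, x3 j ∈ D) → (∀ j, x4 j ∈ D) →
      (∀ r, c0 r * (Behrend.map b x0 : ℕ) + c1 r * (Behrend.map b x1 : ℕ)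
        + c2 r * (Behrend.map b x2 : ℕ) + c3 r * (Behrend.map b x3 : ℕ)
        + c4 r * (Behrend.map b x4 : ℕ) = 0) →
      ∀ r j, c0 r * x0 j + c1 r * x1 j + c2 r * x2 j + c3 r * x3 j + c4 r * x4 j = 0 := by
  intro n
  induction n with
  | zero => intro _ _ _ _ _ _ _ _ _ _ _ _ j; exact j.elim0
  | succ n ih =>
    intro x0 x1 x2 x3 x4 h0 h1 h2 h3 h4 hrel r j
    have hb' : (b : ℤ) ≠ 0 := by exact_mod_cast hb.ne'
    have key : ∀ r, c0 r * x0 0 + c1 r * x1 0 + c2 r * x2 0 + c3 r * x3 0 + c4 r * x4 0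
        + (b : ℤ) * (c0 r * (Behrend.map b (x0 ∘ Fin.succ) : ℕ)
          + c1 r * (Behrend.map b (x1 ∘ Fin.succ) : ℕ)
          + c2 r * (Behrend.map b (x2 ∘ Fin.succ) : ℕ)
          + c3 r * (Behrend.map b (x3 ∘ Fin.succ) : ℕ)
          + c4 r * (Behrend.map b (x4 ∘ Fin.succ) : ℕ)) = 0 := by
      intro r
      have := hrel r
      rw [Behrend.map_succ' x0, Behrend.map_succ' x1, Behrend.map_succ' x2,
        Behrend.map_succ' x3, Behrend.map_succ' x4] at this
      push_cast at this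
      linarith
    have low := good (x0 0) (x1 0) (x2 0) (x3 0) (x4 0) (h0 0) (h1 0) (h2 0) (h3 0) (h4 0)
      (fun r => by
        refine ⟨-(c0 r * (Behrend.map b (x0 ∘ Fin.succ) : ℕ)
          + c1 r * (Behrend.map b (x1 ∘ Fin.succ) : ℕ)
          + c2 r * (Behrend.map b (x2 ∘ Fin.succ) : ℕ)
          + c3 r * (Behrend.map b (x3 ∘ Fin.succ) : ℕ)
          + c4 r * (Behrend.map b (x4 ∘ Fin.succ) : ℕ)), ?_⟩
        have := key r
        linarith)
    have high : ∀ r, c0 r * (Behrend.map b (x0 ∘ Fin.succ) : ℕ)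
          + c1 r * (Behrend.map b (x1 ∘ Fin.succ) : ℕ)
          + c2 r * (Behrend.map b (x2 ∘ Fin.succ) : ℕ)
          + c3 r * (Behrend.map b (x3 ∘ Fin.succ) : ℕ)
          + c4 r * (Behrend.map b (x4 ∘ Fin.succ) : ℕ) = 0 := by
      intro r
      have h5 := key r
      rw [low r, zero_add] at h5
      exact (mul_eq_zero.mp h5).resolve_left hb'
    refine Fin.cases ?_ (fun j => ?_) j
    · exact low r
    · exact ih (x0 ∘ Fin.succ) (x1 ∘ Fin.succ) (x2 ∘ Fin.succ) (x3 ∘ Fin.succ) (x4 ∘ Fin.succ)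
        (fun j => h0 _) (fun j => h1 _) (fun j => h2 _) (fun j => h3 _) (fun j => h4 _) high r j

/-- A number whose base `b` digits are below `b` is below `b ^ n`. -/
lemma map_lt {b : ℕ} : ∀ {n : ℕ} (x : Fin n → ℕ), (∀ j, x j < b) → Behrend.map b x < b ^ n := by
  intro n
  induction n with
  | zero => intro x _; simp
  | succ n ih =>
    intro x hx
    rw [Behrend.map_succ', pow_succ]
    have h0 := hx 0
    have h1 := ih (x ∘ Fin.succ) (fun j => hx _)
    have hb : 0 < b := lt_of_le_of_lt (Nat.zero_le _) h0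
    have : (Behrend.map b (x ∘ Fin.succ) + 1) * b ≤ b ^ n * b :=
      Nat.mul_le_mul_right _ h1
    nlinarith

/-- Squares summed. -/
def norm2 {n : ℕ} (x : Fin n → ℕ) : ℕ := ∑ j, x j ^ 2

lemma norm2_int {n : ℕ} (x : Fin n → ℕ) : (norm2 x : ℤ) = ∑ j, (x j : ℤ) ^ 2 := by
  simp [norm2]

/-- No polynomial progression of degree two and length five in the digits of a sphere. -/
lemma inner_free {d q c : ℕ} (hq : 0 < q) {y0 y1 y2 y3 y4 : Fin d → ℕ}
    (h0 : y0 ∈ Behrend.sphere d q c) (h1 : y1 ∈ Behrend.sphere d q c)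
    (h2 : y2 ∈ Behrend.sphere d q c) (h3 : y3 ∈ Behrend.sphere d q c)
    (h4 : y4 ∈ Behrend.sphere d q c)
    (r0 : (Behrend.map (4 * q) y0 : ℕ) - (3 : ℤ) * (Behrend.map (4 * q) y1 : ℕ)
      + (3 : ℤ) * (Behrend.map (4 * q) y2 : ℕ) - (Behrend.map (4 * q) y3 : ℕ) = 0)
    (r1 : (Behrend.map (4 * q) y1 : ℕ) - (3 : ℤ) * (Behrend.map (4 * q) y2 : ℕ)
      + (3 : ℤ) * (Behrend.map (4 * q) y3 : ℕ) - (Behrend.map (4 * q) y4 : ℕ) = 0) :
    y0 = y1 ∧ y1 = y2 ∧ y2 = y3 ∧ y3 = y4 := by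
  have box : ∀ {y : Fin d → ℕ}, y ∈ Behrend.sphere d q c → ∀ j, y j ∈ range q := by
    intro y hy j
    have := Behrend.mem_box.1 (Behrend.sphere_subset_box hy) j
    simpa using this
  have nrm : ∀ {y : Fin d → ℕ}, y ∈ Behrend.sphere d q c → (∑ j, (y j : ℤ) ^ 2) = c := by
    intro y hy
    have := (Finset.mem_filter.1 hy).2
    exact_mod_cast this
  have digit := digits_rel (ι := Fin 2) ![1, 0] ![-3, 1] ![3, -3] ![-1, 3] ![0, -1]
    (b := 4 * q) (by omega) (range q) (by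
      intro x0 x1 x2 x3 x4 h0 h1 h2 h3 h4 hdvd
      rw [mem_range] at h0 h1 h2 h3 h4
      have e0 := hdvd 0
      have e1 := hdvd 1
      simp only [Fin.isValue, Matrix.cons_val_zero, Matrix.cons_val_one, Matrix.cons_val_fin_one]
        at e0 e1
      push_cast at e0 e1
      intro r
      fin_cases r
      · simp only [Fin.isValue, Fin.zero_eta, Matrix.cons_val_zero]
        apply Int.eq_zero_of_abs_lt_dvd e0
        rw [abs_lt]
        constructor <;> omega
      · simp only [Fin.isValue, Fin.mk_one, Matrix.cons_val_one, Matrix.cons_val_fin_one]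
        apply Int.eq_zero_of_abs_lt_dvd e1
        rw [abs_lt]
        constructor <;> omega)
    y0 y1 y2 y3 y4 (box h0) (box h1) (box h2) (box h3) (box h4) (by
      intro r
      fin_cases r
      · simp only [Fin.isValue, Fin.zero_eta, Matrix.cons_val_zero]
        linarith
      · simp only [Fin.isValue, Fin.mk_one, Matrix.cons_val_one, Matrix.cons_val_fin_one]
        linarith)
  have t0 : ∀ j, (y0 j : ℤ) - 3 * y1 j + 3 * y2 j - y3 j = 0 := by
    intro j
    have := digit 0 j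
    simp only [Fin.isValue, Matrix.cons_val_zero] at this
    linarith
  have t1 : ∀ j, (y1 j : ℤ) - 3 * y2 j + 3 * y3 j - y4 j = 0 := by
    intro j
    have := digit 1 j
    simp only [Fin.isValue, Matrix.cons_val_one, Matrix.cons_val_fin_one] at this
    linarith
  -- fourth difference of the squares
  have fourth : ∑ j, ((y0 j : ℤ) - 2 * y1 j + y2 j) ^ 2 = 0 := by
    have hsum : 6 * ∑ j, ((y0 j : ℤ) - 2 * y1 j + y2 j) ^ 2
        = (∑ j, (y0 j : ℤ) ^ 2) - 4 * (∑ j, (y1 j : ℤ) ^ 2) + 6 * (∑ j, (y2 j : ℤ) ^ 2)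
          - 4 * (∑ j, (y3 j : ℤ) ^ 2) + (∑ j, (y4 j : ℤ) ^ 2) := by
      simp only [Finset.mul_sum, ← Finset.sum_add_distrib, ← Finset.sum_sub_distrib]
      refine Finset.sum_congr rfl (fun j _ => ?_)
      have e3 : (y3 j : ℤ) = y0 j - 3 * y1 j + 3 * y2 j := by linarith [t0 j]
      have e4 : (y4 j : ℤ) = y1 j - 3 * y2 j + 3 * y3 j := by linarith [t1 j]
      rw [e4, e3]
      ring
    rw [nrm h0, nrm h1, nrm h2, nrm h3, nrm h4] at hsum
    have : 6 * ∑ j, ((y0 j : ℤ) - 2 * y1 j + y2 j) ^ 2 = 0 := by rw [hsum]; ring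
    linarith
  have sec : ∀ j, (y0 j : ℤ) - 2 * y1 j + y2 j = 0 := by
    intro j
    have := (Finset.sum_eq_zero_iff_of_nonneg (fun j _ => sq_nonneg _)).1 fourth j (mem_univ j)
    exact pow_eq_zero_iff (by norm_num) |>.1 this
  have first : ∑ j, ((y1 j : ℤ) - y0 j) ^ 2 = 0 := by
    have hsum : 2 * ∑ j, ((y1 j : ℤ) - y0 j) ^ 2
        = (∑ j, (y0 j : ℤ) ^ 2) - 2 * (∑ j, (y1 j : ℤ) ^ 2) + (∑ j, (y2 j : ℤ) ^ 2) := by
      simp only [Finset.mul_sum, ← Finset.sum_add_distrib, ← Finset.sum_sub_distrib]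
      refine Finset.sum_congr rfl (fun j _ => ?_)
      have e2 : (y2 j : ℤ) = 2 * y1 j - y0 j := by linarith [sec j]
      rw [e2]
      ring
    rw [nrm h0, nrm h1, nrm h2] at hsum
    have : 2 * ∑ j, ((y1 j : ℤ) - y0 j) ^ 2 = 0 := by rw [hsum]; ring
    linarith
  have e01 : ∀ j, (y1 j : ℤ) = y0 j := by
    intro j
    have := (Finset.sum_eq_zero_iff_of_nonneg (fun j _ => sq_nonneg _)).1 first j (mem_univ j)
    have := pow_eq_zero_iff (by norm_num) |>.1 this
    linarith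
  have e12 : ∀ j, (y2 j : ℤ) = y0 j := by
    intro j; linarith [sec j, e01 j]
  have e13 : ∀ j, (y3 j : ℤ) = y0 j := by
    intro j; linarith [t0 j, e01 j, e12 j]
  have e14 : ∀ j, (y4 j : ℤ) = y0 j := by
    intro j; linarith [t1 j, e01 j, e12 j, e13 j]
  refine ⟨funext fun j => ?_, funext fun j => ?_, funext fun j => ?_, funext fun j => ?_⟩
  · have := e01 j; omega
  · have := e01 j; have := e12 j; omega
  · have := e13 j; have := e12 j; omega
  · have := e13 j; have := e14 j; omega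


/-- The outer level: a five-term progression of integers whose digits lie in `shape m`, with the
squared norms of the digit vectors in a translate of the image of a sphere, is constant. -/
lemma outer_free {m n d q c t F : ℕ} (hm : m % 2 = 1) (hq : 0 < q)
    {x0 x1 x2 x3 x4 : Fin n → ℕ}
    (hx0 : ∀ j, x0 j ∈ shape m) (hx1 : ∀ j, x1 j ∈ shape m) (hx2 : ∀ j, x2 j ∈ shape m)
    (hx3 : ∀ j, x3 j ∈ shape m) (hx4 : ∀ j, x4 j ∈ shape m)
    {y0 y1 y2 y3 y4 : Fin d → ℕ}
    (hy0 : y0 ∈ Behrend.sphere d q c) (hy1 : y1 ∈ Behrend.sphere d q c)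
    (hy2 : y2 ∈ Behrend.sphere d q c) (hy3 : y3 ∈ Behrend.sphere d q c)
    (hy4 : y4 ∈ Behrend.sphere d q c)
    (b0 : Behrend.map (4 * q) y0 + F = t + norm2 x0)
    (b1 : Behrend.map (4 * q) y1 + F = t + norm2 x1)
    (b2 : Behrend.map (4 * q) y2 + F = t + norm2 x2)
    (b3 : Behrend.map (4 * q) y3 + F = t + norm2 x3)
    (b4 : Behrend.map (4 * q) y4 + F = t + norm2 x4)
    (r0 : (Behrend.map m x0 : ℕ) - (2 : ℤ) * (Behrend.map m x1 : ℕ) + (Behrend.map m x2 : ℕ) = 0)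
    (r1 : (Behrend.map m x1 : ℕ) - (2 : ℤ) * (Behrend.map m x2 : ℕ) + (Behrend.map m x3 : ℕ) = 0)
    (r2 : (Behrend.map m x2 : ℕ) - (2 : ℤ) * (Behrend.map m x3 : ℕ) + (Behrend.map m x4 : ℕ) = 0) :
    x0 = x1 := by
  have hm0 : 0 < m := by omega
  have digit := digits_rel (ι := Fin 3) ![1, 0, 0] ![-2, 1, 0] ![1, -2, 1] ![0, 1, -2] ![0, 0, 1]
    (b := m) hm0 (shape m) (by
      intro x0 x1 x2 x3 x4 h0 h1 h2 h3 h4 hdvd
      have e0 := hdvd 0
      have e1 := hdvd 1
      have e2 := hdvd 2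
      simp only [Fin.isValue, Matrix.cons_val_zero, Matrix.cons_val_one, Matrix.cons_val]
        at e0 e1 e2
      have d0 : (m : ℤ) ∣ (x0 : ℤ) - 2 * x1 + x2 := by
        convert e0 using 1; ring
      have d1 : (m : ℤ) ∣ (x1 : ℤ) - 2 * x2 + x3 := by
        convert e1 using 1; ring
      have d2 : (m : ℤ) ∣ (x2 : ℤ) - 2 * x3 + x4 := by
        convert e2 using 1; ring
      obtain ⟨f0, f1, f2⟩ := shape_true hm h0 h1 h2 h3 h4 d0 d1 d2
      intro r
      fin_cases r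
      · simp only [Fin.isValue, Fin.zero_eta, Matrix.cons_val_zero]; linarith
      · simp only [Fin.isValue, Fin.mk_one, Matrix.cons_val_one, Matrix.cons_val_zero]; linarith
      · simp only [Fin.reduceFinMk, Matrix.cons_val]; linarith)
    x0 x1 x2 x3 x4 hx0 hx1 hx2 hx3 hx4 (by
      intro r
      fin_cases r
      · simp only [Fin.isValue, Fin.zero_eta, Matrix.cons_val_zero]; linarith
      · simp only [Fin.isValue, Fin.mk_one, Matrix.cons_val_one, Matrix.cons_val_zero]; linarith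
      · simp only [Fin.reduceFinMk, Matrix.cons_val]; linarith)
  have s0 : ∀ j, (x2 j : ℤ) = 2 * x1 j - x0 j := by
    intro j
    have := digit 0 j
    simp only [Fin.isValue, Matrix.cons_val_zero] at this
    linarith
  have s1 : ∀ j, (x3 j : ℤ) = 3 * x1 j - 2 * x0 j := by
    intro j
    have := digit 1 j
    simp only [Fin.isValue, Matrix.cons_val_one, Matrix.cons_val_zero] at this
    linarith [s0 j]
  have s2 : ∀ j, (x4 j : ℤ) = 4 * x1 j - 3 * x0 j := by
    intro j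
    have := digit 2 j
    simp only [Fin.isValue, Matrix.cons_val] at this
    linarith [s0 j, s1 j]
  have n0 := norm2_int x0
  have n1 := norm2_int x1
  have n2 := norm2_int x2
  have n3 := norm2_int x3
  have n4 := norm2_int x4
  have third0 : (norm2 x0 : ℤ) - 3 * norm2 x1 + 3 * norm2 x2 - norm2 x3 = 0 := by
    rw [n0, n1, n2, n3]
    simp only [Finset.mul_sum, ← Finset.sum_add_distrib, ← Finset.sum_sub_distrib]
    refine Finset.sum_eq_zero (fun j _ => ?_)
    rw [s0 j, s1 j]; ring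
  have third1 : (norm2 x1 : ℤ) - 3 * norm2 x2 + 3 * norm2 x3 - norm2 x4 = 0 := by
    rw [n1, n2, n3, n4]
    simp only [Finset.mul_sum, ← Finset.sum_add_distrib, ← Finset.sum_sub_distrib]
    refine Finset.sum_eq_zero (fun j _ => ?_)
    rw [s0 j, s1 j, s2 j]; ring
  have z0 : ((Behrend.map (4 * q) y0 : ℕ) : ℤ) = t + norm2 x0 - F := by
    have : ((Behrend.map (4 * q) y0 + F : ℕ) : ℤ) = ((t + norm2 x0 : ℕ) : ℤ) := by rw [b0]
    push_cast at this; linarith
  have z1 : ((Behrend.map (4 * q) y1 : ℕ) : ℤ) = t + norm2 x1 - F := by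
    have : ((Behrend.map (4 * q) y1 + F : ℕ) : ℤ) = ((t + norm2 x1 : ℕ) : ℤ) := by rw [b1]
    push_cast at this; linarith
  have z2 : ((Behrend.map (4 * q) y2 : ℕ) : ℤ) = t + norm2 x2 - F := by
    have : ((Behrend.map (4 * q) y2 + F : ℕ) : ℤ) = ((t + norm2 x2 : ℕ) : ℤ) := by rw [b2]
    push_cast at this; linarith
  have z3 : ((Behrend.map (4 * q) y3 : ℕ) : ℤ) = t + norm2 x3 - F := by
    have : ((Behrend.map (4 * q) y3 + F : ℕ) : ℤ) = ((t + norm2 x3 : ℕ) : ℤ) := by rw [b3]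
    push_cast at this; linarith
  have z4 : ((Behrend.map (4 * q) y4 : ℕ) : ℤ) = t + norm2 x4 - F := by
    have : ((Behrend.map (4 * q) y4 + F : ℕ) : ℤ) = ((t + norm2 x4 : ℕ) : ℤ) := by rw [b4]
    push_cast at this; linarith
  obtain ⟨e01, e12, -, -⟩ := inner_free hq hy0 hy1 hy2 hy3 hy4
    (by rw [z0, z1, z2, z3]; linarith) (by rw [z1, z2, z3, z4]; linarith)
  subst e01
  subst e12
  have eq01 : (norm2 x0 : ℤ) = norm2 x1 := by rw [z0] at z1; linarith
  have eq12 : (norm2 x1 : ℤ) = norm2 x2 := by rw [z1] at z2; linarith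
  have first : ∑ j, ((x1 j : ℤ) - x0 j) ^ 2 = 0 := by
    have hsum : 2 * ∑ j, ((x1 j : ℤ) - x0 j) ^ 2
        = (norm2 x0 : ℤ) - 2 * norm2 x1 + norm2 x2 := by
      rw [n0, n1, n2]
      simp only [Finset.mul_sum, ← Finset.sum_add_distrib, ← Finset.sum_sub_distrib]
      refine Finset.sum_congr rfl (fun j _ => ?_)
      rw [s0 j]; ring
    have : 2 * ∑ j, ((x1 j : ℤ) - x0 j) ^ 2 = 0 := by rw [hsum]; linarith
    linarith
  funext j
  have := (Finset.sum_eq_zero_iff_of_nonneg (fun j _ => sq_nonneg _)).1 first j (mem_univ j)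
  have := pow_eq_zero_iff (by norm_num) |>.1 this
  omega

/-- The combinatorial core of the construction. -/
theorem core {m n d q c F : ℕ} (hm : m % 2 = 1) (hq : 0 < q) (hF : n * m ^ 2 ≤ F) :
    ∃ A : Finset ℕ, A ⊆ Finset.Icc 1 (m ^ n) ∧ (∀ a e : ℕ, 0 < e → ¬ ∀ i < 5, a + i * e ∈ A) ∧
      (((shape m).card : ℝ) ^ n * (Behrend.sphere d q c).card) / (((4 * q) ^ d + F : ℕ) : ℝ)
        ≤ A.card := by
  classical
  set X : Finset (Fin n → ℕ) := Fintype.piFinset (fun _ => shape m) with hX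
  set B : Finset ℕ := (Behrend.sphere d q c).image (Behrend.map (4 * q)) with hB
  set T : ℕ := (4 * q) ^ d + F with hT
  have hcardX : X.card = (shape m).card ^ n := by
    simp [hX]
  have hsphere_lt : ∀ y ∈ Behrend.sphere d q c, ∀ j, y j < 4 * q := by
    intro y hy j
    have := Behrend.mem_box.1 (Behrend.sphere_subset_box hy) j
    omega
  have hcardB : B.card = (Behrend.sphere d q c).card := by
    apply Finset.card_image_of_injOn
    intro y hy y' hy' h
    exact Behrend.map_injOn (hsphere_lt y hy) (hsphere_lt y' hy') h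
  have hB_lt : ∀ b ∈ B, b < (4 * q) ^ d := by
    intro b hb
    obtain ⟨y, hy, rfl⟩ := Finset.mem_image.1 hb
    exact map_lt y (hsphere_lt y hy)
  have hnorm : ∀ x ∈ X, norm2 x ≤ F := by
    intro x hx
    have hx' : ∀ j, x j ∈ shape m := fun j => Fintype.mem_piFinset.1 hx j
    have : norm2 x ≤ ∑ _j : Fin n, m ^ 2 := by
      apply Finset.sum_le_sum
      intro j _
      have := (mem_shape.1 (hx' j)).1
      exact Nat.pow_le_pow_left this.le 2
    simp only [sum_const, card_univ, Fintype.card_fin, smul_eq_mul] at this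
    exact this.trans hF
  have hT0 : 0 < T := by
    have : 0 < (4 * q) ^ d := by positivity
    omega
  set f : (Fin n → ℕ) × ℕ → ℕ := fun p => p.2 + F - norm2 p.1 with hf
  have hmaps : ∀ p ∈ X ×ˢ B, f p ∈ range T := by
    intro p hp
    obtain ⟨h1, h2⟩ := Finset.mem_product.1 hp
    have := hB_lt _ h2
    rw [mem_range]
    simp only [hf]
    omega
  have hne : (range T).Nonempty := ⟨0, by simp [hT0]⟩
  obtain ⟨t, -, ht⟩ := Finset.exists_le_card_fiber_of_nsmul_le_card_of_maps_to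
    (b := ((X ×ˢ B).card : ℝ) / T) hmaps hne (by
      simp only [card_range, nsmul_eq_mul]
      have : (T : ℝ) ≠ 0 := by exact_mod_cast hT0.ne'
      field_simp
      exact le_refl _)
  set P := (X ×ˢ B).filter (fun p => f p = t) with hP
  set g : (Fin n → ℕ) × ℕ → ℕ := fun p => Behrend.map m p.1 + 1 with hg
  have hmem : ∀ p ∈ P, (∀ j, p.1 j ∈ shape m) ∧ p.2 ∈ B ∧ p.2 + F = t + norm2 p.1 := by
    intro p hp
    obtain ⟨hp1, hp2⟩ := Finset.mem_filter.1 hp
    obtain ⟨h1, h2⟩ := Finset.mem_product.1 hp1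
    refine ⟨fun j => Fintype.mem_piFinset.1 h1 j, h2, ?_⟩
    have := hnorm _ h1
    simp only [hf] at hp2
    omega
  have hlt : ∀ x : Fin n → ℕ, (∀ j, x j ∈ shape m) → ∀ j, x j < m :=
    fun x hx j => (mem_shape.1 (hx j)).1
  have hinj : Set.InjOn g P := by
    intro p hp p' hp' h
    obtain ⟨a1, a2, a3⟩ := hmem p hp
    obtain ⟨a1', a2', a3'⟩ := hmem p' hp'
    have e : Behrend.map m p.1 = Behrend.map m p'.1 := by
      simp only [hg] at h
      omega
    have e' : p.1 = p'.1 := Behrend.map_injOn (hlt _ a1) (hlt _ a1') e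
    have e'' : p.2 = p'.2 := by
      rw [e'] at a3
      omega
    exact Prod.ext e' e''
  refine ⟨P.image g, ?_, ?_, ?_⟩
  · intro a ha
    obtain ⟨p, hp, rfl⟩ := Finset.mem_image.1 ha
    obtain ⟨a1, -, -⟩ := hmem p hp
    have := map_lt p.1 (hlt _ a1)
    simp only [hg, Finset.mem_Icc]
    omega
  · intro a e he hall
    have hi : ∀ i < 5, ∃ x : Fin n → ℕ, ∃ y ∈ Behrend.sphere d q c, (∀ j, x j ∈ shape m) ∧
        Behrend.map (4 * q) y + F = t + norm2 x ∧ Behrend.map m x + 1 = a + i * e := by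
      intro i hi
      obtain ⟨p, hp, hpa⟩ := Finset.mem_image.1 (hall i hi)
      obtain ⟨a1, a2, a3⟩ := hmem p hp
      obtain ⟨y, hy, hyb⟩ := Finset.mem_image.1 a2
      exact ⟨p.1, y, hy, a1, by rw [hyb]; exact a3, hpa⟩
    obtain ⟨x0, y0, hy0, hx0, b0, m0⟩ := hi 0 (by norm_num)
    obtain ⟨x1, y1, hy1, hx1, b1, m1⟩ := hi 1 (by norm_num)
    obtain ⟨x2, y2, hy2, hx2, b2, m2⟩ := hi 2 (by norm_num)
    obtain ⟨x3, y3, hy3, hx3, b3, m3⟩ := hi 3 (by norm_num)
    obtain ⟨x4, y4, hy4, hx4, b4, m4⟩ := hi 4 (by norm_num)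
    have key := outer_free hm hq hx0 hx1 hx2 hx3 hx4 hy0 hy1 hy2 hy3 hy4 b0 b1 b2 b3 b4
      (by push_cast; omega) (by push_cast; omega) (by push_cast; omega)
    subst key
    omega
  · rw [Finset.card_image_of_injOn hinj]
    refine le_trans (le_of_eq ?_) ht
    rw [Finset.card_product, hcardX, hcardB]
    push_cast
    simp only [hT]

end Vale.Agent.Lib.P057
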