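import Mathlib

namespace Vale.Agent.Lib.P057

open Finset Polynomial
open scoped fwdDiff

/-- `x` agrees on `{0, …, L - 1}` with a rational polynomial of degree at most `D`. -/
def IsPolyProg (D L : ℕ) (x : ℕ → ℤ) : Prop :=
  ∃ p : ℚ[X], p.natDegree ≤ D ∧ ∀ i < L, p.eval (i : ℚ) = x i

/-- The `(D + 1)`-st finite difference of `x` at `i`. -/
def diffSum (D : ℕ) (x : ℕ → ℤ) (i : ℕ) : ℤ :=
  ∑ k ∈ range (D + 2), (-1) ^ (D + 1 - k) * ((D + 1).choose k : ℤ) * x (i + k)

lemma poly_diff_zero {D : ℕ} (p : ℚ[X]) (hp : p.natDegree ≤ D) (i : ℕ) :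
    ∑ k ∈ range (D + 2), ((-1 : ℚ) ^ (D + 1 - k) * ((D + 1).choose k : ℚ))
      * p.eval ((i + k : ℕ) : ℚ) = 0 := by
  have h := Polynomial.fwdDiff_iter_eq_zero_of_degree_lt (P := p) (n := D + 1) (by omega)
  have h2 := congr_fun h (i : ℚ)
  rw [fwdDiff_iter_eq_sum_shift] at h2
  simp only [Pi.zero_apply] at h2
  rw [← h2]
  refine Finset.sum_congr rfl (fun k _ => ?_)
  simp only [zsmul_eq_mul, nsmul_eq_mul, mul_one]
  push_cast
  ring

/-- A polynomial progression has vanishing finite differences. -/
lemma diffSum_of_isPolyProg {D L : ℕ} {x : ℕ → ℤ} (h : IsPolyProg D L x) {i : ℕ}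
    (hi : i + D + 1 < L) : diffSum D x i = 0 := by
  obtain ⟨p, hp, hx⟩ := h
  have h1 := poly_diff_zero p hp i
  have h2 : ((diffSum D x i : ℤ) : ℚ) = 0 := by
    rw [← h1, diffSum]
    push_cast
    refine Finset.sum_congr rfl (fun k hk => ?_)
    rw [mem_range] at hk
    have : i + k < L := by omega
    rw [← hx _ this]
    push_cast
    ring
  exact_mod_cast h2

/-- Conversely, vanishing finite differences give a polynomial progression. -/
lemma isPolyProg_of_diffSum {D L : ℕ} {x : ℕ → ℤ}
    (h : ∀ i, i + D + 1 < L → diffSum D x i = 0) : IsPolyProg D L x := by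
  classical
  set s := range (D + 1) with hs
  set v : ℕ → ℚ := fun i => (i : ℚ) with hv
  set r : ℕ → ℚ := fun i => (x i : ℚ) with hr
  have hinj : Set.InjOn v s := fun a _ b _ hab => by
    simpa [hv] using hab
  set p := Lagrange.interpolate s v r with hp
  have hdeg : p.natDegree ≤ D := by
    by_cases h0 : p = 0
    · simp [h0]
    · have := Lagrange.degree_interpolate_lt (s := s) (v := v) r hinj
      rw [card_range, ← hp, degree_eq_natDegree h0] at this
      have h1 : p.natDegree < D + 1 := by exact_mod_cast this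
      omega
  refine ⟨p, hdeg, ?_⟩
  intro i
  induction i using Nat.strong_induction_on with
  | _ i ih =>
    intro hi
    by_cases hiD : i ≤ D
    · have := Lagrange.eval_interpolate_at_node (s := s) (v := v) r hinj
        (i := i) (by rw [hs, mem_range]; omega)
      exact this
    · obtain ⟨i', rfl⟩ : ∃ i', i = i' + (D + 1) := ⟨i - (D + 1), by omega⟩
      have h1 := poly_diff_zero p hdeg i'
      have h2 := h i' (by omega)
      have h3 : ((diffSum D x i' : ℤ) : ℚ) = 0 := by exact_mod_cast h2
      rw [diffSum] at h3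
      push_cast at h3
      rw [Finset.sum_range_succ] at h1 h3
      have h4 : ∑ k ∈ range (D + 1), ((-1 : ℚ) ^ (D + 1 - k) * ((D + 1).choose k : ℚ))
          * p.eval ((i' + k : ℕ) : ℚ)
          = ∑ k ∈ range (D + 1), ((-1 : ℚ) ^ (D + 1 - k) * ((D + 1).choose k : ℚ))
          * (x (i' + k) : ℚ) := by
        refine Finset.sum_congr rfl (fun k hk => ?_)
        rw [mem_range] at hk
        rw [ih (i' + k) (by omega) (by omega)]
      rw [h4] at h1
      simp only [Nat.sub_self, pow_zero, Nat.choose_self, Nat.cast_one, mul_one, one_mul] at h1 h3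
      have h5 : p.eval ((i' + (D + 1) : ℕ) : ℚ) = (x (i' + (D + 1)) : ℚ) := by
        linarith
      exact h5

/-- Digit lemma: a finite difference relation among numbers written in base `m` with digits in a
good set descends to the digits. -/
lemma digit_descend {D L m : ℕ} (hm : 0 < m) {S : Finset ℕ}
    (good : ∀ y : ℕ → ℕ, (∀ i < L, y i ∈ S) →
      (∀ i, i + D + 1 < L → (m : ℤ) ∣ diffSum D (fun k => (y k : ℤ)) i) →
      ∀ i, i + D + 1 < L → diffSum D (fun k => (y k : ℤ)) i = 0) :
    ∀ {n : ℕ} (x : ℕ → Fin n → ℕ), (∀ i < L, ∀ j, x i j ∈ S) →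
      (∀ i, i + D + 1 < L → diffSum D (fun k => ((Behrend.map m (x k) : ℕ) : ℤ)) i = 0) →
      ∀ j i, i + D + 1 < L → diffSum D (fun k => (x k j : ℤ)) i = 0 := by
  intro n
  induction n with
  | zero => intro _ _ _ j; exact j.elim0
  | succ n ih =>
    intro x hx hrel j i hi
    have hm' : (m : ℤ) ≠ 0 := by exact_mod_cast hm.ne'
    have key : ∀ i, diffSum D (fun k => ((Behrend.map m (x k) : ℕ) : ℤ)) i
        = diffSum D (fun k => (x k 0 : ℤ)) i
          + (m : ℤ) * diffSum D (fun k => ((Behrend.map m (x k ∘ Fin.succ) : ℕ) : ℤ)) i := by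
      intro i
      simp only [diffSum, Finset.mul_sum, ← Finset.sum_add_distrib]
      refine Finset.sum_congr rfl (fun k _ => ?_)
      rw [Behrend.map_succ']
      push_cast
      ring
    have low := good (fun k => x k 0) (fun i hi => hx i hi 0) (fun i hi => by
      refine ⟨-diffSum D (fun k => ((Behrend.map m (x k ∘ Fin.succ) : ℕ) : ℤ)) i, ?_⟩
      have h1 := key i
      rw [hrel i hi] at h1
      linarith)
    have high : ∀ i, i + D + 1 < L →
        diffSum D (fun k => ((Behrend.map m (x k ∘ Fin.succ) : ℕ) : ℤ)) i = 0 := by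
      intro i hi
      have h1 := key i
      rw [hrel i hi, low i hi, zero_add] at h1
      exact (mul_eq_zero.mp h1.symm).resolve_left hm'
    refine Fin.cases ?_ (fun j => ?_) j
    · exact low i hi
    · exact ih (fun k => x k ∘ Fin.succ) (fun i hi j => hx i hi _) high j i hi

/-- If a sum of squares of rational polynomials is constant, every polynomial is constant. -/
lemma natDegree_eq_zero_of_sum_sq {ι : Type*} [Fintype ι] (p : ι → ℚ[X]) (c : ℚ)
    (h : ∑ j, p j ^ 2 = C c) (j : ι) : (p j).natDegree = 0 := by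
  classical
  set e := (univ : Finset ι).sup (fun j => (p j).natDegree) with he
  have hle : ∀ j, (p j).natDegree ≤ e := fun j => Finset.le_sup (f := fun j => (p j).natDegree)
    (mem_univ j)
  by_cases he0 : e = 0
  · have := hle j
    omega
  exfalso
  have hne : (univ : Finset ι).Nonempty := ⟨j, mem_univ j⟩
  obtain ⟨j0, -, hj0⟩ := Finset.exists_mem_eq_sup (univ : Finset ι) hne
    (fun j => (p j).natDegree)
  have hco : (C c : ℚ[X]).coeff (2 * e) = 0 := by
    rw [coeff_C, if_neg]
    omega
  rw [← h, finsetSum_coeff] at hco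
  have hterm : ∀ j, (p j ^ 2).coeff (2 * e) = (p j).coeff e ^ 2 := fun j =>
    coeff_pow_of_natDegree_le (hle j)
  simp only [hterm] at hco
  have := (Finset.sum_eq_zero_iff_of_nonneg (fun j _ => sq_nonneg _)).1 hco j0 (mem_univ j0)
  have h0 : (p j0).coeff e = 0 := pow_eq_zero_iff (by norm_num) |>.1 this
  have h1 : (p j0).coeff (p j0).natDegree = 0 := by
    rw [← he, ] at hj0
    rw [← hj0]
    exact h0
  have h2 : p j0 = 0 := leadingCoeff_eq_zero.1 h1
  have h3 : (p j0).natDegree = e := hj0.symm
  rw [h2, natDegree_zero] at h3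
  omega

end Vale.Agent.Lib.P057
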