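import Mathlib
import Vale.Agent.Lib.P057.Poly
import Vale.Agent.Lib.P057.Core

namespace Vale.Agent.Lib.P057

open Finset Polynomial

/-- `B` contains no nonconstant polynomial progression of degree at most `D` and length `L`. -/
def PolyFree (D L : ℕ) (B : Finset ℕ) : Prop :=
  ∀ b : ℕ → ℕ, (∀ i < L, b i ∈ B) → IsPolyProg D L (fun i => (b i : ℤ)) → ∀ i < L, b i = b 0

/-- Finite difference relations modulo `m` among digits in `S` hold exactly. -/
def GoodDigits (D L m : ℕ) (S : Finset ℕ) : Prop :=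
  ∀ y : ℕ → ℕ, (∀ i < L, y i ∈ S) →
    (∀ i, i + D + 1 < L → (m : ℤ) ∣ diffSum D (fun k => (y k : ℤ)) i) →
    ∀ i, i + D + 1 < L → diffSum D (fun k => (y k : ℤ)) i = 0

/-- The key descent: digit vectors whose numbers form a polynomial progression of degree `D`, and
whose squared norms lie in a translate of a set free of progressions of degree `2 D`, are constant.
-/
lemma digits_constant {D L m n t F : ℕ} {S B : Finset ℕ} (hL : 2 * D < L) (hm : 0 < m)
    (good : GoodDigits D L m S) (free : PolyFree (2 * D) L B)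
    {x : ℕ → Fin n → ℕ} {b : ℕ → ℕ}
    (hx : ∀ i < L, ∀ j, x i j ∈ S) (hb : ∀ i < L, b i ∈ B)
    (hbx : ∀ i < L, b i + F = t + norm2 (x i))
    (hprog : IsPolyProg D L (fun i => ((Behrend.map m (x i) : ℕ) : ℤ))) :
    ∀ i < L, x i = x 0 := by
  classical
  have hdigit := digit_descend (D := D) (L := L) (m := m) hm (S := S) good x hx
    (fun i hi => diffSum_of_isPolyProg hprog hi)
  have hcoord : ∀ j, IsPolyProg D L (fun k => (x k j : ℤ)) :=
    fun j => isPolyProg_of_diffSum (fun i hi => hdigit j i hi)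
  choose p hpdeg hpeval using hcoord
  set Q : ℚ[X] := ∑ j, p j ^ 2 with hQ
  have hQdeg : Q.natDegree ≤ 2 * D := by
    apply natDegree_sum_le_of_forall_le
    intro j _
    calc (p j ^ 2).natDegree ≤ 2 * (p j).natDegree := natDegree_pow_le
      _ ≤ 2 * D := Nat.mul_le_mul_left _ (hpdeg j)
  have hQeval : ∀ i < L, Q.eval (i : ℚ) = (norm2 (x i) : ℚ) := by
    intro i hi
    rw [hQ, eval_finsetSum]
    simp only [eval_pow, norm2]
    push_cast
    refine Finset.sum_congr rfl (fun j _ => ?_)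
    rw [hpeval j i hi]
    push_cast
    rfl
  set R : ℚ[X] := Q + C ((t : ℚ) - F) with hR
  have hRdeg : R.natDegree ≤ 2 * D := by
    refine (natDegree_add_le _ _).trans (max_le hQdeg ?_)
    rw [natDegree_C]
    exact Nat.zero_le _
  have hReval : ∀ i < L, R.eval (i : ℚ) = (b i : ℚ) := by
    intro i hi
    rw [hR, eval_add, eval_C, hQeval i hi]
    have : ((b i + F : ℕ) : ℚ) = ((t + norm2 (x i) : ℕ) : ℚ) := by rw [hbx i hi]
    push_cast at this
    linarith
  have hconst := free b hb ⟨R, hRdeg, fun i hi => by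
    rw [hReval i hi]; push_cast; rfl⟩
  have hL0 : 0 < L := by omega
  have hQconst : Q = C (Q.eval (0 : ℚ)) := by
    apply Polynomial.eq_of_degree_sub_lt_of_eval_finset_eq ((range L).image (fun i : ℕ => (i : ℚ)))
    · rw [Finset.card_image_of_injective _ Nat.cast_injective, card_range]
      have h1 : (Q - C (Q.eval (0 : ℚ))).natDegree ≤ 2 * D :=
        (natDegree_sub_le _ _).trans (max_le hQdeg (by simp))
      calc (Q - C (Q.eval (0 : ℚ))).degree ≤ ((Q - C (Q.eval (0 : ℚ))).natDegree : ℕ) :=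
            degree_le_natDegree
        _ ≤ ((2 * D : ℕ) : WithBot ℕ) := by exact_mod_cast h1
        _ < (L : WithBot ℕ) := by exact_mod_cast hL
    · intro y hy
      obtain ⟨i, hi, rfl⟩ := Finset.mem_image.1 hy
      rw [mem_range] at hi
      rw [eval_C, hQeval i hi]
      have h0 := hQeval 0 hL0
      have h1 := hconst i hi
      have h2 := hbx i hi
      have h3 := hbx 0 hL0
      have h4 : norm2 (x i) = norm2 (x 0) := by omega
      rw [h4]
      simpa using h0.symm
  have hdeg0 : ∀ j, (p j).natDegree = 0 := fun j =>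
    natDegree_eq_zero_of_sum_sq p (Q.eval (0 : ℚ)) (by rw [← hQ]; exact hQconst) j
  intro i hi
  funext j
  have h1 := hpeval j i hi
  have h2 := hpeval j 0 hL0
  rw [eq_C_of_natDegree_eq_zero (hdeg0 j), eval_C] at h1 h2
  have h3 : ((x i j : ℤ) : ℚ) = ((x 0 j : ℤ) : ℚ) := by
    rw [← h1]
    simpa using h2
  have h4 : (x i j : ℤ) = x 0 j := by exact_mod_cast h3
  exact_mod_cast h4

/-- The combinatorial step of the recursion. -/
theorem level_step {D L m n M F : ℕ} {S B : Finset ℕ} (hL : 2 * D < L) (hm : 0 < m)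
    (hS : S ⊆ range m) (good : GoodDigits D L m S) (hB : B ⊆ range M)
    (free : PolyFree (2 * D) L B) (hF : n * m ^ 2 ≤ F) (hT : 0 < M + F) :
    ∃ A : Finset ℕ, A ⊆ range (m ^ n) ∧ PolyFree D L A ∧
      ((S.card : ℝ) ^ n * B.card) / ((M + F : ℕ) : ℝ) ≤ A.card := by
  classical
  set X : Finset (Fin n → ℕ) := Fintype.piFinset (fun _ => S) with hX
  set T : ℕ := M + F with hTdef
  have hcardX : X.card = S.card ^ n := by simp [hX]
  have hlt : ∀ x : Fin n → ℕ, (∀ j, x j ∈ S) → ∀ j, x j < m :=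
    fun x hx j => mem_range.1 (hS (hx j))
  have hnorm : ∀ x ∈ X, norm2 x ≤ F := by
    intro x hx
    have hx' : ∀ j, x j ∈ S := fun j => Fintype.mem_piFinset.1 hx j
    have : norm2 x ≤ ∑ _j : Fin n, m ^ 2 := by
      apply Finset.sum_le_sum
      intro j _
      exact Nat.pow_le_pow_left (hlt x hx' j).le 2
    simp only [sum_const, card_univ, Fintype.card_fin, smul_eq_mul] at this
    exact this.trans hF
  set f : (Fin n → ℕ) × ℕ → ℕ := fun p => p.2 + F - norm2 p.1 with hf
  have hmaps : ∀ p ∈ X ×ˢ B, f p ∈ range T := by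
    intro p hp
    obtain ⟨h1, h2⟩ := Finset.mem_product.1 hp
    have := mem_range.1 (hB h2)
    rw [mem_range]
    simp only [hf]
    omega
  have hne : (range T).Nonempty := ⟨0, mem_range.2 hT⟩
  have hT' : (T : ℝ) ≠ 0 := by exact_mod_cast hT.ne'
  obtain ⟨t, -, ht⟩ := Finset.exists_le_card_fiber_of_nsmul_le_card_of_maps_to
    (b := ((X ×ˢ B).card : ℝ) / T) hmaps hne (by
      simp only [card_range, nsmul_eq_mul]
      field_simp
      exact le_refl _)
  set P := (X ×ˢ B).filter (fun p => f p = t) with hP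
  set g : (Fin n → ℕ) × ℕ → ℕ := fun p => Behrend.map m p.1 with hg
  have hmem : ∀ p ∈ P, (∀ j, p.1 j ∈ S) ∧ p.2 ∈ B ∧ p.2 + F = t + norm2 p.1 := by
    intro p hp
    obtain ⟨hp1, hp2⟩ := Finset.mem_filter.1 hp
    obtain ⟨h1, h2⟩ := Finset.mem_product.1 hp1
    refine ⟨fun j => Fintype.mem_piFinset.1 h1 j, h2, ?_⟩
    have := hnorm _ h1
    simp only [hf] at hp2
    omega
  have hinj : Set.InjOn g P := by
    intro p hp p' hp' h
    obtain ⟨a1, a2, a3⟩ := hmem p hp
    obtain ⟨a1', a2', a3'⟩ := hmem p' hp'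
    have e' : p.1 = p'.1 := Behrend.map_injOn (hlt _ a1) (hlt _ a1') h
    have e'' : p.2 = p'.2 := by
      rw [e'] at a3
      omega
    exact Prod.ext e' e''
  refine ⟨P.image g, ?_, ?_, ?_⟩
  · intro a ha
    obtain ⟨p, hp, rfl⟩ := Finset.mem_image.1 ha
    obtain ⟨a1, -, -⟩ := hmem p hp
    rw [mem_range]
    exact map_lt p.1 (hlt _ a1)
  · intro a ha hprog
    have hi : ∀ i, i < L → ∃ p ∈ P, Behrend.map m p.1 = a i := by
      intro i hi
      obtain ⟨p, hp, hpa⟩ := Finset.mem_image.1 (ha i hi)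
      exact ⟨p, hp, hpa⟩
    have hdef : ∀ i, ∃ p : (Fin n → ℕ) × ℕ, i < L → p ∈ P ∧ Behrend.map m p.1 = a i := by
      intro i
      by_cases h : i < L
      · obtain ⟨p, hp, hpa⟩ := hi i h
        exact ⟨p, fun _ => ⟨hp, hpa⟩⟩
      · exact ⟨(fun _ => 0, 0), fun h' => absurd h' h⟩
    choose pp hpp using hdef
    have hprog' : IsPolyProg D L (fun i => ((Behrend.map m (pp i).1 : ℕ) : ℤ)) := by
      obtain ⟨q, hq, hqe⟩ := hprog
      refine ⟨q, hq, fun i hi => ?_⟩
      have h1 := hqe i hi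
      simp only at h1 ⊢
      rw [h1, (hpp i hi).2]
    have hc := digits_constant (x := fun i => (pp i).1) (b := fun i => (pp i).2) (t := t) (F := F)
      hL hm good free (fun i hi j => (hmem _ (hpp i hi).1).1 j)
      (fun i hi => (hmem _ (hpp i hi).1).2.1)
      (fun i hi => (hmem _ (hpp i hi).1).2.2) hprog'
    intro i hi
    have hL0 : 0 < L := by omega
    rw [← (hpp i hi).2, ← (hpp 0 hL0).2, hc i hi]
  · rw [Finset.card_image_of_injOn hinj]
    refine le_trans (le_of_eq ?_) ht
    rw [Finset.card_product, hcardX]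
    push_cast
    rfl

end Vale.Agent.Lib.P057
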