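import Mathlib
import Vale.Agent.Lib.P057.Core

namespace Vale.Agent.Lib.P057

open Finset

/-- The size of the digit set for `m = 12 t + 1`. -/
lemma shape_card (t : ℕ) : 7 * (12 * t + 1) ≤ 12 * (shape (12 * t + 1)).card := by
  have hsub : (range (6 * t + 1)) ∪ ((range t).image (fun i => 6 * t + 2 + 2 * i))
      ⊆ shape (12 * t + 1) := by
    intro x hx
    rw [mem_union, mem_range, mem_image] at hx
    rw [mem_shape]
    rcases hx with hx | ⟨i, hi, rfl⟩
    · omega
    · rw [mem_range] at hi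
      omega
  have hdisj : Disjoint (range (6 * t + 1)) ((range t).image (fun i => 6 * t + 2 + 2 * i)) := by
    rw [Finset.disjoint_left]
    intro x hx hx'
    rw [mem_range] at hx
    obtain ⟨i, _, rfl⟩ := mem_image.1 hx'
    omega
  have hcard := card_le_card hsub
  rw [card_union_of_disjoint hdisj, card_range, card_image_of_injective _ (by
    intro a b h
    simp only at h
    omega), card_range] at hcard
  omega

/-- Integer root bracket. -/
lemma exists_root {N n : ℕ} (hN : 1 ≤ N) (hn : 1 ≤ n) :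
    ∃ r : ℕ, 1 ≤ r ∧ r ^ n ≤ N ∧ N < (r + 1) ^ n := by
  set r := Nat.findGreatest (fun x => x ^ n ≤ N) (N + 1) with hr
  have h1 : 1 ≤ r := by
    apply Nat.le_findGreatest (by omega)
    simpa using hN
  have h2 : r ^ n ≤ N := Nat.findGreatest_spec (P := fun x => x ^ n ≤ N) (m := 1) (by omega)
    (by simpa using hN)
  have h3 : r ≤ N := by
    by_contra hcon
    push Not at hcon
    have : N + 1 ≤ r := hcon
    have h4 : r ^ 1 ≤ r ^ n := Nat.pow_le_pow_right h1 hn
    simp only [pow_one] at h4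
    omega
  refine ⟨r, h1, h2, ?_⟩
  by_contra hcon
  push Not at hcon
  have := Nat.findGreatest_is_greatest (P := fun x => x ^ n ≤ N) (n := N + 1) (k := r + 1)
    (by omega) (by omega)
  exact this hcon


open Real

lemma logb_two_nonneg {x : ℝ} (hx : 1 ≤ x) : 0 ≤ logb 2 x :=
  Real.logb_nonneg (by norm_num) hx

/-- The deterministic step: explicit parameters give a large set without five-term progressions. -/
theorem step {N : ℕ} (hN : 1 ≤ N) {κ W L c u : ℝ} (hκ1 : 1 / 2 ≤ κ) (hκ : κ = logb 2 (12 / 7))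
    (hW : 1 ≤ W) (hL : L = logb 2 N) (hWL : W ^ 3 = 8 * κ * L)
    (H1 : logb 2 (2 * W + 1) ≤ W)
    (H2 : (2 * W + 1) * logb 2 (48 * W + 36) < L)
    (H3 : 3 * W + κ + 6 + logb 2 (W / 2 + 1) ≤ c * u) :
    ∃ A : Finset ℕ, A ⊆ Finset.Icc 1 N ∧ (∀ a e : ℕ, 0 < e → ¬ ∀ i < 5, a + i * e ∈ A) ∧
      (N : ℝ) * 2 ^ (-(c * u)) ≤ A.card := by
  have hκ0 : 0 < κ := by linarith
  have hW0 : 0 < W := by linarith
  -- parameters
  set n : ℕ := ⌈W / κ⌉₊ with hn
  have hn1 : W / κ ≤ n := Nat.le_ceil _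
  have hn2 : (n : ℝ) < W / κ + 1 := Nat.ceil_lt_add_one (by positivity)
  have hWκ : W / κ ≤ 2 * W := by
    rw [div_le_iff₀ hκ0]
    nlinarith
  have hn3 : (n : ℝ) ≤ 2 * W + 1 := by linarith
  have hnpos : 1 ≤ n := by
    have : 0 < n := Nat.ceil_pos.2 (by positivity)
    omega
  set d : ℕ := ⌈W / 2⌉₊ with hd
  have hd1 : W / 2 ≤ d := Nat.le_ceil _
  have hd2 : (d : ℝ) < W / 2 + 1 := Nat.ceil_lt_add_one (by positivity)
  have hdpos : 1 ≤ d := by
    have : 0 < d := Nat.ceil_pos.2 (by positivity)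
    omega
  set q : ℕ := 2 ^ d with hq
  have hq0 : 0 < q := by positivity
  obtain ⟨r, hr1, hr2, hr3⟩ := exists_root hN hnpos
  set t : ℕ := (r - 1) / 12 with ht
  set m : ℕ := 12 * t + 1 with hm
  have hmr : m ≤ r := by omega
  have hrm : r + 1 ≤ m + 12 := by omega
  have hodd : m % 2 = 1 := by omega
  have hm1 : m ^ n ≤ N := (Nat.pow_le_pow_left hmr n).trans hr2
  have hm2 : N < (m + 12) ^ n := lt_of_lt_of_le hr3 (Nat.pow_le_pow_left hrm n)
  have hL0 : 0 ≤ L := by
    rw [hL]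
    exact logb_two_nonneg (by exact_mod_cast hN)
  have hNreal : (0 : ℝ) < N := by exact_mod_cast hN
  -- `m` is large
  have hm24 : 24 * n ≤ m := by
    by_contra hcon
    push Not at hcon
    have h1 : N < (24 * n + 12) ^ n :=
      lt_of_lt_of_le hm2 (Nat.pow_le_pow_left (by omega) n)
    have h2 : (N : ℝ) < ((24 * (n : ℝ) + 12) ^ n : ℝ) := by exact_mod_cast h1
    have h3 : logb 2 (N : ℝ) < n * logb 2 (24 * (n : ℝ) + 12) := by
      rw [← Real.logb_pow]
      exact Real.logb_lt_logb (by norm_num) hNreal h2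
    have h4 : logb 2 (24 * (n : ℝ) + 12) ≤ logb 2 (48 * W + 36) := by
      apply Real.logb_le_logb_of_le (by norm_num) (by positivity)
      linarith
    have h5 : 0 ≤ logb 2 (24 * (n : ℝ) + 12) := logb_two_nonneg (by
      have : (0 : ℝ) ≤ n := by positivity
      linarith)
    have h6 : (n : ℝ) * logb 2 (24 * (n : ℝ) + 12) ≤ (2 * W + 1) * logb 2 (48 * W + 36) := by
      apply mul_le_mul hn3 h4 h5 (by positivity)
    rw [← hL] at h3
    linarith
  have hmpos : 1 ≤ m := by omega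
  have hmreal : (1 : ℝ) ≤ m := by exact_mod_cast hmpos
  have hnreal : (1 : ℝ) ≤ n := by exact_mod_cast hnpos
  have hdreal : (1 : ℝ) ≤ d := by exact_mod_cast hdpos
  -- the range of the norm is covered by the inner set
  have hlogm0 : 0 ≤ logb 2 (m : ℝ) := logb_two_nonneg hmreal
  have hlogm1 : (n : ℝ) * logb 2 (m : ℝ) ≤ L := by
    rw [hL, ← Real.logb_pow]
    apply Real.logb_le_logb_of_le (by norm_num) (by positivity)
    exact_mod_cast hm1
  have hlogm2 : W * (2 * logb 2 (m : ℝ)) ≤ 2 * (κ * L) := by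
    have h1 : W / κ * logb 2 (m : ℝ) ≤ L :=
      (mul_le_mul_of_nonneg_right hn1 hlogm0).trans hlogm1
    have h2 : W * logb 2 (m : ℝ) ≤ κ * L := by
      have h3 : W / κ * logb 2 (m : ℝ) = (W * logb 2 (m : ℝ)) / κ := by ring
      rw [h3, div_le_iff₀ hκ0] at h1
      linarith
    linarith
  have hlogm3 : 2 * logb 2 (m : ℝ) ≤ W ^ 2 / 4 := by
    have h1 : W * (2 * logb 2 (m : ℝ)) ≤ W * (W ^ 2 / 4) := by
      have : W * (W ^ 2 / 4) = 2 * (κ * L) := by
        have e : W * (W ^ 2 / 4) = W ^ 3 / 4 := by ring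
        rw [e, hWL]; ring
      rw [this]
      exact hlogm2
    exact le_of_mul_le_mul_left h1 hW0
  have hWd : W ^ 2 / 4 ≤ (d : ℝ) ^ 2 := by
    have : (W / 2) ^ 2 ≤ (d : ℝ) ^ 2 := by
      apply pow_le_pow_left₀ (by positivity) hd1
    calc W ^ 2 / 4 = (W / 2) ^ 2 := by ring
      _ ≤ _ := this
  have hlogn : logb 2 (n : ℝ) ≤ 2 * d := by
    have h1 : logb 2 (n : ℝ) ≤ logb 2 (2 * W + 1) :=
      Real.logb_le_logb_of_le (by norm_num) (by positivity) hn3
    linarith
  have hF : n * m ^ 2 ≤ (4 * q) ^ d := by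
    have h1 : ((n * m ^ 2 : ℕ) : ℝ) ≤ (2 : ℝ) ^ (((d + 2) * d : ℕ) : ℝ) := by
      have hpos : (0 : ℝ) < ((n * m ^ 2 : ℕ) : ℝ) := by
        push_cast
        positivity
      rw [← Real.logb_le_iff_le_rpow (by norm_num) hpos]
      push_cast
      rw [Real.logb_mul (by positivity) (by positivity), Real.logb_pow]
      push_cast
      nlinarith
    rw [Real.rpow_natCast] at h1
    have h2 : (4 * q) ^ d = 2 ^ ((d + 2) * d) := by
      rw [hq, show (4 : ℕ) = 2 ^ 2 by norm_num, ← pow_add, ← pow_mul]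
      congr 1
      ring
    rw [h2]
    exact_mod_cast h1
  -- apply the combinatorial core
  obtain ⟨k, hk⟩ := Behrend.exists_large_sphere d q
  obtain ⟨A, hA1, hA2, hA3⟩ := core (m := m) (n := n) (d := d) (q := q) (c := k)
    (F := n * m ^ 2) hodd hq0 le_rfl
  refine ⟨A, hA1.trans (Finset.Icc_subset_Icc_right hm1), hA2, ?_⟩
  -- real estimates
  have hshape : (7 / 12 * (m : ℝ)) ≤ ((shape m).card : ℝ) := by
    have := shape_card t
    rw [← hm] at this
    have h' : (7 : ℝ) * m ≤ 12 * ((shape m).card : ℝ) := by exact_mod_cast this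
    linarith
  have hM4 : (0 : ℝ) < ((4 * q : ℕ) : ℝ) ^ d := by
    have : (0 : ℝ) < ((4 * q : ℕ) : ℝ) := by
      have : 0 < 4 * q := by omega
      exact_mod_cast this
    positivity
  have hT : (((4 * q) ^ d + n * m ^ 2 : ℕ) : ℝ) ≤ 2 * ((4 * q : ℕ) : ℝ) ^ d := by
    have h : (4 * q) ^ d + n * m ^ 2 ≤ 2 * (4 * q) ^ d := by omega
    exact_mod_cast h
  have hq2 : (0 : ℝ) < (q : ℝ) := by exact_mod_cast hq0
  have hTpos : (0 : ℝ) < (((4 * q) ^ d + n * m ^ 2 : ℕ) : ℝ) := by
    have : 0 < (4 * q) ^ d := by positivity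
    have : 0 < (4 * q) ^ d + n * m ^ 2 := by omega
    exact_mod_cast this
  have hsph : ((q : ℝ) ^ d / ((d : ℝ) * (q : ℝ) ^ 2)) ≤ ((Behrend.sphere d q k).card : ℝ) := by
    simpa using hk
  have hstep1 : (7 / 12 * (m : ℝ)) ^ n * ((q : ℝ) ^ d / ((d : ℝ) * (q : ℝ) ^ 2))
      / (2 * ((4 * q : ℕ) : ℝ) ^ d) ≤ A.card := by
    refine le_trans ?_ hA3
    apply div_le_div₀ (by positivity) _ hTpos hT
    apply mul_le_mul (pow_le_pow_left₀ (by positivity) hshape n) hsph (by positivity)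
      (by positivity)
  -- `N` versus `m ^ n`
  have hNm : (N : ℝ) ≤ 2 * (m : ℝ) ^ n := by
    have h1 : (N : ℝ) ≤ ((m : ℝ) + 12) ^ n := by
      have : N ≤ (m + 12) ^ n := hm2.le
      exact_mod_cast this
    have hmp : (0 : ℝ) < m := by linarith
    have h2 : ((m : ℝ) + 12) = m * (1 + 12 / m) := by
      field_simp
    have h3 : (1 + 12 / (m : ℝ)) ^ n ≤ 2 := by
      have h4 : 1 + 12 / (m : ℝ) ≤ Real.exp (12 / m) := by
        have := Real.add_one_le_exp (12 / (m : ℝ))
        linarith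
      have h5 : (1 + 12 / (m : ℝ)) ^ n ≤ (Real.exp (12 / m)) ^ n :=
        pow_le_pow_left₀ (by positivity) h4 n
      have h6 : (Real.exp (12 / (m : ℝ))) ^ n = Real.exp (n * (12 / m)) := by
        rw [← Real.exp_nat_mul]
      have h7 : (n : ℝ) * (12 / m) ≤ 1 / 2 := by
        have : (24 : ℝ) * n ≤ m := by exact_mod_cast hm24
        rw [mul_div_assoc', div_le_iff₀ hmp]
        linarith
      have h8 : Real.exp ((n : ℝ) * (12 / m)) ≤ Real.exp (1 / 2) := Real.exp_le_exp.2 h7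
      have h9 : Real.exp (1 / 2) ≤ 2 := by
        have h10 : Real.exp (1 / 2) ^ 2 = Real.exp 1 := by
          rw [← Real.exp_nat_mul]
          norm_num
        have h11 := Real.exp_one_lt_d9
        have h12 : Real.exp (1 / 2) ^ 2 ≤ 2 ^ 2 := by
          rw [h10]
          linarith
        exact abs_le_of_sq_le_sq' h12 (by norm_num) |>.2
      linarith
    calc (N : ℝ) ≤ ((m : ℝ) + 12) ^ n := h1
      _ = (m : ℝ) ^ n * (1 + 12 / m) ^ n := by rw [h2, mul_pow]
      _ ≤ (m : ℝ) ^ n * 2 := by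
        apply mul_le_mul_of_nonneg_left h3 (by positivity)
      _ = 2 * (m : ℝ) ^ n := by ring
  -- the exponent
  set R : ℝ := 4 * d * (q : ℝ) ^ 2 * 4 ^ d * (12 / 7) ^ n with hR
  have hdp : (0 : ℝ) < d := by linarith
  have hRpos : 0 < R := by positivity
  have hRle : R ≤ 2 ^ (c * u) := by
    rw [← Real.logb_le_iff_le_rpow (by norm_num) hRpos]
    have e1 : logb 2 R = 2 + logb 2 (d : ℝ) + 2 * d + 2 * d + n * κ := by
      rw [hR, hκ, Real.logb_mul (by positivity) (by positivity),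
        Real.logb_mul (by positivity) (by positivity),
        Real.logb_mul (by positivity) (by positivity),
        Real.logb_mul (by positivity) (by positivity),
        Real.logb_pow, Real.logb_pow, Real.logb_pow]
      have e2 : logb 2 (4 : ℝ) = 2 := by
        rw [show (4 : ℝ) = 2 ^ (2 : ℕ) by norm_num, Real.logb_pow, Real.logb_self_eq_one (by norm_num)]
        norm_num
      have e3 : logb 2 (q : ℝ) = d := by
        rw [hq]
        push_cast
        rw [Real.logb_pow, Real.logb_self_eq_one (by norm_num)]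
        ring
      rw [e2, e3]
      push_cast
      ring
    rw [e1]
    have e4 : logb 2 (d : ℝ) ≤ logb 2 (W / 2 + 1) :=
      Real.logb_le_logb_of_le (by norm_num) hdp hd2.le
    have e5 : (n : ℝ) * κ ≤ W + κ := by
      have : (n : ℝ) * κ ≤ (W / κ + 1) * κ := mul_le_mul_of_nonneg_right hn2.le hκ0.le
      have e6 : (W / κ + 1) * κ = W + κ := by
        field_simp
      linarith
    linarith
  -- conclusion
  have hfinal : (N : ℝ) * 2 ^ (-(c * u)) ≤ (7 / 12 * (m : ℝ)) ^ n
      * ((q : ℝ) ^ d / ((d : ℝ) * (q : ℝ) ^ 2)) / (2 * ((4 * q : ℕ) : ℝ) ^ d) := by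
    have hmp : (0 : ℝ) < m := by linarith
    have e7 : (7 / 12 * (m : ℝ)) ^ n * ((q : ℝ) ^ d / ((d : ℝ) * (q : ℝ) ^ 2))
        / (2 * ((4 * q : ℕ) : ℝ) ^ d) = 2 * (m : ℝ) ^ n / R := by
      rw [hR]
      push_cast
      rw [mul_pow, mul_pow]
      have h12 : ((12 : ℝ) / 7) ^ n = 1 / (7 / 12 : ℝ) ^ n := by
        rw [← one_div_pow]
        norm_num
      rw [h12]
      field_simp
      ring
    rw [e7, Real.rpow_neg (by norm_num)]
    have h2pos : (0 : ℝ) < 2 ^ (c * u) := by positivity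
    calc (N : ℝ) * (2 ^ (c * u))⁻¹ ≤ 2 * (m : ℝ) ^ n * (2 ^ (c * u))⁻¹ := by
          apply mul_le_mul_of_nonneg_right hNm (by positivity)
      _ = 2 * (m : ℝ) ^ n / 2 ^ (c * u) := by rw [div_eq_mul_inv]
      _ ≤ 2 * (m : ℝ) ^ n / R := by
          apply div_le_div_of_nonneg_left (by positivity) hRpos hRle
  exact hfinal.trans hstep1

end Vale.Agent.Lib.P057
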