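import Mathlib
import Vale.Agent.Lib.P057.Level
import Vale.Agent.Lib.P057.Params

namespace Vale.Agent.Lib.P057

open Finset Polynomial

/-- A family of digit sets of relative density at least `2 ^ (-α)`, for moduli within a bounded
distance below every large number. -/
def DigitFamily (α : ℝ) (D L : ℕ) : Prop :=
  ∃ A r₀ : ℕ, ∀ r, r₀ ≤ r → ∃ (m : ℕ) (S : Finset ℕ), r ≤ m + A ∧ m ≤ r ∧ 0 < m ∧
    S ⊆ range m ∧ GoodDigits D L m S ∧ (2 : ℝ) ^ (-α) * m ≤ S.card

lemma sum_coeff_zero (D : ℕ) :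
    ∑ k ∈ range (D + 2), (-1 : ℤ) ^ (D + 1 - k) * ((D + 1).choose k : ℤ) = 0 := by
  have h : IsPolyProg D (D + 2) (fun _ => 1) := ⟨C 1, by simp, fun i _ => by simp⟩
  have h2 := diffSum_of_isPolyProg h (i := 0) (by omega)
  simpa [diffSum] using h2

lemma sum_abs_coeff (D : ℕ) :
    ∑ k ∈ range (D + 2), ((D + 1).choose k : ℤ) = 2 ^ (D + 1) := by
  have := Nat.sum_range_choose (D + 1)
  exact_mod_cast this

/-- Cube digits: the digits below `q` are good modulo `2 ^ D * q`. -/
lemma cube_good (D L q : ℕ) (hq : 0 < q) : GoodDigits D L (2 ^ D * q) (range q) := by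
  intro y hy hdvd i hi
  have hval : ∀ k ∈ range (D + 2), (0 : ℤ) ≤ y (i + k) ∧ (y (i + k) : ℤ) ≤ q - 1 := by
    intro k hk
    rw [mem_range] at hk
    have := mem_range.1 (hy (i + k) (by omega))
    constructor
    · positivity
    · omega
  have h2 : 2 * diffSum D (fun k => (y k : ℤ)) i
      = ∑ k ∈ range (D + 2), (-1 : ℤ) ^ (D + 1 - k) * ((D + 1).choose k : ℤ)
        * (2 * (y (i + k) : ℤ) - (q - 1)) := by
    have h0 := sum_coeff_zero D
    have : ∑ k ∈ range (D + 2), (-1 : ℤ) ^ (D + 1 - k) * ((D + 1).choose k : ℤ)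
        * (2 * (y (i + k) : ℤ) - (q - 1))
        = 2 * diffSum D (fun k => (y k : ℤ)) i
          - (q - 1) * ∑ k ∈ range (D + 2), (-1 : ℤ) ^ (D + 1 - k) * ((D + 1).choose k : ℤ) := by
      simp only [diffSum, Finset.mul_sum, ← Finset.sum_sub_distrib]
      refine Finset.sum_congr rfl (fun k _ => ?_)
      ring
    rw [this, h0]
    ring
  have h3 : |2 * diffSum D (fun k => (y k : ℤ)) i| ≤ 2 ^ (D + 1) * ((q : ℤ) - 1) := by
    rw [h2]
    refine (Finset.abs_sum_le_sum_abs _ _).trans ?_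
    rw [← sum_abs_coeff D, Finset.sum_mul]
    refine Finset.sum_le_sum (fun k hk => ?_)
    obtain ⟨h1, h4⟩ := hval k hk
    rw [abs_mul, abs_mul, abs_pow, abs_neg, abs_one, one_pow, one_mul, abs_of_nonneg (by positivity)]
    apply mul_le_mul_of_nonneg_left _ (by positivity)
    rw [abs_le]
    constructor <;> linarith
  have h4 : |diffSum D (fun k => (y k : ℤ)) i| < ((2 ^ D * q : ℕ) : ℤ) := by
    rw [abs_mul, abs_two] at h3
    have h5 : (0 : ℤ) < 2 ^ D := by positivity
    push_cast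
    have h6 : (2 : ℤ) ^ (D + 1) * ((q : ℤ) - 1) = 2 * (2 ^ D * ((q : ℤ) - 1)) := by ring
    rw [h6] at h3
    have h7 := le_of_mul_le_mul_left h3 (by norm_num)
    nlinarith
  exact Int.eq_zero_of_abs_lt_dvd (hdvd i hi) h4

/-- Cube digits form a digit family. -/
lemma cube_family (D L : ℕ) : DigitFamily (D : ℝ) D L := by
  refine ⟨2 ^ D, 2 ^ D, fun r hr => ?_⟩
  have h2 : 0 < 2 ^ D := by positivity
  set q := r / 2 ^ D with hq
  have hq0 : 0 < q := Nat.div_pos hr h2
  have e1 : 2 ^ D * q ≤ r := Nat.mul_div_le r _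
  have e2 : r < 2 ^ D * q + 2 ^ D := by
    have := Nat.lt_mul_div_succ r h2
    rw [Nat.mul_add, mul_one] at this
    exact this
  refine ⟨2 ^ D * q, range q, e2.le, e1, by positivity, ?_, cube_good D L q hq0, ?_⟩
  · intro x hx
    rw [mem_range] at hx ⊢
    have : 1 * q ≤ 2 ^ D * q := Nat.mul_le_mul_right _ h2
    omega
  · rw [card_range, Real.rpow_neg (by norm_num), Real.rpow_natCast]
    push_cast
    have : (2 : ℝ) ^ D ≠ 0 := by positivity
    field_simp
    exact le_refl _

/-- The second difference is the finite difference of order two. -/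
lemma diffSum_one (x : ℕ → ℤ) (i : ℕ) : diffSum 1 x i = x i - 2 * x (i + 1) + x (i + 2) := by
  simp [diffSum, Finset.sum_range_succ, Nat.choose]
  ring

/-- The digit set `shape m` is good for progressions of length at least five. -/
lemma shape_good {m L : ℕ} (hm : m % 2 = 1) (hL : 5 ≤ L) : GoodDigits 1 L m (shape m) := by
  intro y hy hdvd i hi
  rw [diffSum_one]
  have hdvd' : ∀ i, i + 2 < L → (m : ℤ) ∣ (y i : ℤ) - 2 * y (i + 1) + y (i + 2) := by
    intro i hi
    have := hdvd i (by omega)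
    rwa [diffSum_one] at this
  set s := min i (L - 5) with hs
  have hs1 : s + 4 < L := by omega
  have hs2 : s ≤ i := by omega
  have hs3 : i ≤ s + 2 := by omega
  obtain ⟨f0, f1, f2⟩ := shape_true hm (hy s (by omega)) (hy (s + 1) (by omega))
    (hy (s + 2) (by omega)) (hy (s + 3) (by omega)) (hy (s + 4) (by omega))
    (hdvd' s (by omega)) (hdvd' (s + 1) (by omega)) (hdvd' (s + 2) (by omega))
  have h : i = s ∨ i = s + 1 ∨ i = s + 2 := by omega
  rcases h with h | h | h
  · rw [h]; exact f0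
  · rw [h]; exact f1
  · rw [h]; exact f2

/-- The digit sets `shape (12 t + 1)` form a digit family with density `7/12`. -/
lemma shape_family {L : ℕ} (hL : 5 ≤ L) : DigitFamily (Real.logb 2 (12 / 7)) 1 L := by
  refine ⟨12, 1, fun r hr => ?_⟩
  set t := (r - 1) / 12 with ht
  refine ⟨12 * t + 1, shape (12 * t + 1), by omega, by omega, by omega, ?_,
    shape_good (by omega) hL, ?_⟩
  · intro x hx
    exact mem_range.2 (mem_shape.1 hx).1
  · have h1 : (2 : ℝ) ^ (-Real.logb 2 (12 / 7)) = 7 / 12 := by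
      rw [Real.rpow_neg (by norm_num), Real.rpow_logb (by norm_num) (by norm_num) (by norm_num)]
      norm_num
    rw [h1]
    have := shape_card t
    have h' : (7 : ℝ) * ((12 * t + 1 : ℕ) : ℝ) ≤ 12 * ((shape (12 * t + 1)).card : ℝ) := by
      exact_mod_cast this
    linarith

end Vale.Agent.Lib.P057
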