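import Mathlib
import Vale.Agent.Lib.P057.Params

namespace Vale.Agent.Lib.P057

open Real Filter

lemma log_small (a b δ : ℝ) (ha : 0 < a) (hδ : 0 < δ) :
    ∀ᶠ W : ℝ in atTop, logb 2 (a * W + b) ≤ δ * W := by
  have hlog2 : 0 < Real.log 2 := Real.log_pos (by norm_num)
  have h1 := Real.isLittleO_log_id_atTop
  have h2 : Tendsto (fun W : ℝ => a * W + b) atTop atTop :=
    tendsto_atTop_add_const_right _ _ (tendsto_id.const_mul_atTop ha)
  have hδ' : 0 < δ * Real.log 2 / (2 * a) := by positivity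
  have h3 := h1.def hδ'
  have h4 := h2.eventually h3
  filter_upwards [h4, eventually_ge_atTop (|b| / a), eventually_gt_atTop 0] with W hW hW1 hW0
  rw [div_le_iff₀ ha] at hW1
  have hb : b ≤ W * a := (le_abs_self b).trans hW1
  have hx : 0 ≤ a * W + b := by
    have := neg_abs_le b
    nlinarith
  simp only [id, Real.norm_eq_abs, abs_of_nonneg hx] at hW
  have h5 : Real.log (a * W + b) ≤ δ * Real.log 2 / (2 * a) * (a * W + b) :=
    (le_abs_self _).trans hW
  rw [Real.logb, div_le_iff₀ hlog2]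
  have h6 : δ * Real.log 2 / (2 * a) * (a * W + b) ≤ δ * Real.log 2 / (2 * a) * (2 * (a * W)) :=
    mul_le_mul_of_nonneg_left (by nlinarith) hδ'.le
  have h7 : δ * Real.log 2 / (2 * a) * (2 * (a * W)) = δ * W * Real.log 2 := by
    field_simp
  linarith

/-- The main lower bound. -/
theorem main_bound (c : ℝ) (hc : 6 * (logb 2 (12 / 7)) ^ ((1 : ℝ) / 3) < c) :
    ∃ N₀ : ℕ, ∀ N : ℕ, N₀ ≤ N → ∃ A : Finset ℕ, A ⊆ Finset.Icc 1 N ∧
      (∀ a d : ℕ, 0 < d → ¬ ∀ i < 5, a + i * d ∈ A) ∧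
      (N : ℝ) * 2 ^ (-(c * (logb 2 N) ^ ((1 : ℝ) / 3))) ≤ A.card := by
  set κ : ℝ := logb 2 (12 / 7) with hκ
  have hκ1 : 1 / 2 ≤ κ := by
    have h1 : logb 2 (2 : ℝ) ≤ logb 2 ((12 / 7 : ℝ) ^ 2) :=
      Real.logb_le_logb_of_le (by norm_num) (by norm_num) (by norm_num)
    rw [Real.logb_self_eq_one (by norm_num), Real.logb_pow] at h1
    push_cast at h1
    rw [← hκ] at h1
    linarith
  have hκ2 : κ ≤ 1 := by
    have h1 : logb 2 (12 / 7 : ℝ) ≤ logb 2 (2 : ℝ) :=
      Real.logb_le_logb_of_le (by norm_num) (by norm_num) (by norm_num)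
    rwa [Real.logb_self_eq_one (by norm_num)] at h1
  have hκ0 : 0 < κ := by linarith
  set v : ℝ := κ ^ ((1 : ℝ) / 3) with hv
  have hv0 : 0 < v := by positivity
  have hv3 : v ^ 3 = κ := by
    rw [hv, ← Real.rpow_natCast, ← Real.rpow_mul hκ0.le]
    norm_num
  set ε : ℝ := (c - 6 * v) / (2 * v) with hε
  have hε0 : 0 < ε := by
    apply div_pos _ (by positivity)
    linarith
  have hu : Tendsto (fun N : ℕ => (logb 2 (N : ℝ)) ^ ((1 : ℝ) / 3)) atTop atTop := by
    apply (tendsto_rpow_atTop (by norm_num : (0 : ℝ) < 1 / 3)).comp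
    exact (Real.tendsto_logb_atTop (by norm_num)).comp tendsto_natCast_atTop_atTop
  have hWt : Tendsto (fun N : ℕ => 2 * v * (logb 2 (N : ℝ)) ^ ((1 : ℝ) / 3)) atTop atTop :=
    hu.const_mul_atTop (by positivity)
  have E1 := hWt.eventually (log_small 2 1 1 (by norm_num) (by norm_num))
  have E2 := hWt.eventually (log_small 48 36 1 (by norm_num) (by norm_num))
  have E3 := hWt.eventually (log_small (1 / 2) 1 (ε / 2) (by norm_num) (by positivity))
  have E4 := hWt.eventually (eventually_ge_atTop 25)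
  have E5 := hWt.eventually (eventually_ge_atTop ((κ + 6) / (ε / 2)))
  have E6 : ∀ᶠ N : ℕ in atTop, 1 ≤ N := eventually_ge_atTop 1
  obtain ⟨N₀, hN₀⟩ := eventually_atTop.1 (E1.and (E2.and (E3.and (E4.and (E5.and E6)))))
  refine ⟨N₀, fun N hN => ?_⟩
  obtain ⟨e1, e2, e3, e4, e5, e6⟩ := hN₀ N hN
  set L : ℝ := logb 2 (N : ℝ) with hL
  have hL0 : 0 ≤ L := logb_two_nonneg (by exact_mod_cast e6)
  set u : ℝ := L ^ ((1 : ℝ) / 3) with hu'
  have hu3 : u ^ 3 = L := by
    rw [hu', ← Real.rpow_natCast, ← Real.rpow_mul hL0]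
    norm_num
  set W : ℝ := 2 * v * u with hW
  have hWL : W ^ 3 = 8 * κ * L := by
    rw [hW, mul_pow, mul_pow, hv3, hu3]
    ring
  have hW3 : W ^ 3 ≤ 8 * L := by
    rw [hWL]
    nlinarith
  have hW25 : (25 : ℝ) ≤ W := e4
  apply step (κ := κ) (W := W) (L := L) e6 hκ1 hκ (by linarith) hL hWL (by linarith)
  · have h1 : (2 * W + 1) * logb 2 (48 * W + 36) ≤ (2 * W + 1) * W := by
      have h2 : logb 2 (48 * W + 36) ≤ 1 * W := e2
      have h3 : 0 ≤ 2 * W + 1 := by linarith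
      nlinarith
    have h5 : 2 * W + 1 < W ^ 2 / 8 := by nlinarith
    have h4 : (2 * W + 1) * W < W ^ 3 / 8 := by
      have h6 := mul_lt_mul_of_pos_right h5 (by linarith : 0 < W)
      have h7 : W ^ 2 / 8 * W = W ^ 3 / 8 := by ring
      linarith
    linarith
  · have h1 : logb 2 (1 / 2 * W + 1) ≤ ε / 2 * W := e3
    have h2 : logb 2 (W / 2 + 1) = logb 2 (1 / 2 * W + 1) := by
      congr 1; ring
    have h3 : κ + 6 ≤ ε / 2 * W := by
      have := (div_le_iff₀ (by positivity : 0 < ε / 2)).1 e5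
      linarith
    have h4 : c * u = 3 * W + ε * W := by
      rw [hW, hε]
      field_simp
      ring
    rw [h4, h2]
    linarith

end Vale.Agent.Lib.P057
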