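import Mathlib
import Vale.Agent.Lib.P057.Digits
import Vale.Agent.Lib.P057.Main

namespace Vale.Agent.Lib.P057

open Finset Filter Real

/-- Density statement at level `j`. -/
def Dens (j : ℕ) (E : ℝ) (D L : ℕ) : Prop :=
  ∀ c : ℝ, (j : ℝ) * E ^ ((1 : ℝ) / j) < c → ∃ M₀ : ℕ, ∀ M : ℕ, M₀ ≤ M → ∃ B : Finset ℕ,
    B ⊆ range M ∧ PolyFree D L B ∧ (M : ℝ) * 2 ^ (-(c * (logb 2 (M : ℝ)) ^ ((1 : ℝ) / j))) ≤ B.card

/-- Base of the recursion: a single point has no nonconstant progression. -/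
lemma dens_base (D L : ℕ) : Dens 1 1 D L := by
  intro c hc
  simp only [Nat.cast_one, one_div, inv_one, Real.rpow_one, mul_one] at hc ⊢
  refine ⟨1, fun M hM => ⟨{0}, ?_, ?_, ?_⟩⟩
  · intro x hx
    rw [mem_singleton] at hx
    rw [hx, mem_range]
    omega
  · intro b hb _ i hi
    have h1 := mem_singleton.1 (hb i hi)
    by_cases h0 : 0 < L
    · have h2 := mem_singleton.1 (hb 0 h0)
      omega
    · omega
  · have hM1 : (1 : ℝ) ≤ M := by exact_mod_cast hM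
    have hlog : 0 ≤ logb 2 (M : ℝ) := logb_two_nonneg hM1
    rw [card_singleton, Nat.cast_one]
    have h1 : (2 : ℝ) ^ (-(c * logb 2 (M : ℝ))) ≤ 2 ^ (-logb 2 (M : ℝ)) := by
      apply Real.rpow_le_rpow_of_exponent_le (by norm_num)
      nlinarith
    have h2 : (2 : ℝ) ^ (-logb 2 (M : ℝ)) = (M : ℝ)⁻¹ := by
      rw [Real.rpow_neg (by norm_num), Real.rpow_logb (by norm_num) (by norm_num) (by linarith)]
    rw [h2] at h1
    calc (M : ℝ) * 2 ^ (-(c * logb 2 (M : ℝ))) ≤ (M : ℝ) * (M : ℝ)⁻¹ :=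
          mul_le_mul_of_nonneg_left h1 (by linarith)
      _ = 1 := mul_inv_cancel₀ (by linarith)

/-- `(1 + a / m) ^ n ≤ 2` when `2 a n ≤ m`. -/
lemma pow_bound {a n m : ℝ} {k : ℕ} (ha : 0 ≤ a) (hm : 0 < m) (hk : (k : ℝ) = n)
    (h : 2 * a * n ≤ m) : (m + a) ^ k ≤ 2 * m ^ k := by
  have h2 : m + a = m * (1 + a / m) := by
    field_simp
  have h3 : (1 + a / m) ^ k ≤ 2 := by
    have h4 : 1 + a / m ≤ Real.exp (a / m) := by
      have := Real.add_one_le_exp (a / m)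
      linarith
    have h5 : (1 + a / m) ^ k ≤ (Real.exp (a / m)) ^ k :=
      pow_le_pow_left₀ (by positivity) h4 k
    have h6 : (Real.exp (a / m)) ^ k = Real.exp (k * (a / m)) := by
      rw [← Real.exp_nat_mul]
    have h7 : (k : ℝ) * (a / m) ≤ 1 / 2 := by
      rw [hk, mul_div_assoc', div_le_iff₀ hm]
      linarith
    have h8 : Real.exp ((k : ℝ) * (a / m)) ≤ Real.exp (1 / 2) := Real.exp_le_exp.2 h7
    have h9 : Real.exp (1 / 2) ≤ 2 := by
      have h10 : Real.exp (1 / 2) ^ 2 = Real.exp 1 := by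
        rw [← Real.exp_nat_mul]
        norm_num
      have h11 := Real.exp_one_lt_d9
      have h12 : Real.exp (1 / 2) ^ 2 ≤ 2 ^ 2 := by
        rw [h10]
        linarith
      exact abs_le_of_sq_le_sq' h12 (by norm_num) |>.2
    linarith
  calc (m + a) ^ k = m ^ k * (1 + a / m) ^ k := by rw [h2, mul_pow]
    _ ≤ m ^ k * 2 := mul_le_mul_of_nonneg_left h3 (by positivity)
    _ = 2 * m ^ k := by ring


/-- The deterministic step of the density recursion. -/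
lemma det_step {j D L n A₀ N m r M : ℕ} {S B : Finset ℕ} {α c c' u β η : ℝ}
    (hj : 1 ≤ j) (hL : 2 * D < L) (hN : 1 ≤ N) (hα : 0 < α) (hc : 0 ≤ c) (hβ : 0 < β) (hη : 0 ≤ η)
    (hu : 1 ≤ u) (hΛ : logb 2 (N : ℝ) = u ^ (j + 1))
    (hn1 : β * u ≤ n) (hn2 : (n : ℝ) ≤ β * u + 1) (hn0 : 1 ≤ n)
    (hr1 : r ^ n ≤ N) (hr2 : N < (r + 1) ^ n) (hmr : m ≤ r) (hrm : r ≤ m + A₀) (hm0 : 0 < m)
    (hS : S ⊆ range m) (good : GoodDigits D L m S) (hSc : (2 : ℝ) ^ (-α) * m ≤ S.card)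
    (hM : M = n * m ^ 2) (hB : B ⊆ range M) (free : PolyFree (2 * D) L B)
    (hBc : (M : ℝ) * 2 ^ (-(c * (logb 2 (M : ℝ)) ^ ((1 : ℝ) / j))) ≤ B.card)
    (hlarge : 2 * (A₀ + 1) * n ≤ m)
    (hlogn : logb 2 (β * u + 1) ≤ η * (2 / β) * u)
    (htarget : α * (β * u) + α + c * (((1 + η) * (2 / β)) ^ ((1 : ℝ) / j) * u) + 2 ≤ c' * u) :
    ∃ A : Finset ℕ, A ⊆ range N ∧ PolyFree D L A ∧ (N : ℝ) * 2 ^ (-(c' * u)) ≤ A.card := by
  have hNr : (1 : ℝ) ≤ N := by exact_mod_cast hN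
  have hmr1 : (1 : ℝ) ≤ m := by exact_mod_cast hm0
  have hnr : (1 : ℝ) ≤ n := by exact_mod_cast hn0
  have hu0 : 0 < u := by linarith
  have hMpos : 1 ≤ M := by
    rw [hM]
    have : 1 ≤ m ^ 2 := Nat.one_le_pow _ _ hm0
    exact Nat.mul_pos hn0 this
  have hMr : (1 : ℝ) ≤ M := by exact_mod_cast hMpos
  have hF : n * m ^ 2 ≤ M := hM.ge
  obtain ⟨A, hA1, hA2, hA3⟩ := level_step (D := D) (L := L) (m := m) (n := n) (M := M) (F := M)
    (S := S) (B := B) hL hm0 hS good hB free hF (by omega)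
  have hmn : m ^ n ≤ N := (Nat.pow_le_pow_left hmr n).trans hr1
  refine ⟨A, hA1.trans (Finset.range_subset_range.2 hmn), hA2, ?_⟩
  -- bound on logb of m
  set Lm := logb 2 (m : ℝ) with hLm
  have hLm0 : 0 ≤ Lm := logb_two_nonneg hmr1
  have hLm1 : (n : ℝ) * Lm ≤ u ^ (j + 1) := by
    rw [← hΛ, hLm, ← Real.logb_pow]
    apply Real.logb_le_logb_of_le (by norm_num) (by positivity)
    exact_mod_cast hmn
  have hLm2 : Lm ≤ u ^ j / β := by
    rw [le_div_iff₀ hβ]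
    have h1 : (β * u) * Lm ≤ (n : ℝ) * Lm := mul_le_mul_of_nonneg_right hn1 hLm0
    have h2 : (β * u) * Lm ≤ u ^ (j + 1) := h1.trans hLm1
    have h3 : u * (Lm * β) ≤ u * u ^ j := by
      calc u * (Lm * β) = (β * u) * Lm := by ring
        _ ≤ u ^ (j + 1) := h2
        _ = u * u ^ j := by ring
    exact le_of_mul_le_mul_left h3 hu0
  have hupow : u ≤ u ^ j := by
    calc u = u ^ 1 := (pow_one u).symm
      _ ≤ u ^ j := pow_le_pow_right₀ hu hj
  have hlogM : logb 2 (M : ℝ) ≤ (1 + η) * (2 / β) * u ^ j := by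
    have e1 : logb 2 (M : ℝ) = logb 2 (n : ℝ) + 2 * Lm := by
      rw [hM]
      push_cast
      rw [Real.logb_mul (by positivity) (by positivity), Real.logb_pow]
      push_cast
      rfl
    rw [e1]
    have e2 : logb 2 (n : ℝ) ≤ logb 2 (β * u + 1) :=
      Real.logb_le_logb_of_le (by norm_num) (by positivity) hn2
    have e3 : η * (2 / β) * u ≤ η * (2 / β) * u ^ j := by
      apply mul_le_mul_of_nonneg_left hupow (by positivity)
    have e4 : 2 * Lm ≤ 2 * (u ^ j / β) := by linarith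
    have e5 : (1 + η) * (2 / β) * u ^ j = η * (2 / β) * u ^ j + 2 * (u ^ j / β) := by
      field_simp
      ring
    rw [e5]
    linarith
  have hlogM0 : 0 ≤ logb 2 (M : ℝ) := logb_two_nonneg hMr
  have hjpos : (0 : ℝ) < j := by exact_mod_cast hj
  set W := (1 + η) * (2 / β) with hW
  have hW0 : 0 ≤ W := by positivity
  have hrp : (logb 2 (M : ℝ)) ^ ((1 : ℝ) / j) ≤ W ^ ((1 : ℝ) / j) * u := by
    have e1 : (logb 2 (M : ℝ)) ^ ((1 : ℝ) / j) ≤ (W * u ^ j) ^ ((1 : ℝ) / j) :=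
      Real.rpow_le_rpow hlogM0 hlogM (by positivity)
    have e2 : (W * u ^ j) ^ ((1 : ℝ) / j) = W ^ ((1 : ℝ) / j) * u := by
      rw [Real.mul_rpow hW0 (by positivity)]
      congr 1
      rw [← Real.rpow_natCast, ← Real.rpow_mul hu0.le]
      have : (j : ℝ) * (1 / (j : ℝ)) = 1 := by field_simp
      rw [this, Real.rpow_one]
    rw [e2] at e1
    exact e1
  set T := c * (logb 2 (M : ℝ)) ^ ((1 : ℝ) / j) with hT
  have hTle : T ≤ c * (W ^ ((1 : ℝ) / j) * u) := mul_le_mul_of_nonneg_left hrp hc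
  -- sizes
  have hMR : (0 : ℝ) < M := by linarith
  have hSpow : ((2 : ℝ) ^ (-α) * m) ^ n ≤ (S.card : ℝ) ^ n :=
    pow_le_pow_left₀ (by positivity) hSc n
  have hA4 : ((2 : ℝ) ^ (-α) * m) ^ n * ((M : ℝ) * 2 ^ (-T)) / (2 * (M : ℝ)) ≤ A.card := by
    refine le_trans ?_ hA3
    have e : ((M + M : ℕ) : ℝ) = 2 * (M : ℝ) := by push_cast; ring
    rw [e]
    apply div_le_div_of_nonneg_right _ (by positivity)
    exact mul_le_mul hSpow hBc (by positivity) (by positivity)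
  have hN2 : (N : ℝ) ≤ 2 * (m : ℝ) ^ n := by
    have h1 : (N : ℝ) ≤ ((m : ℝ) + ((A₀ : ℝ) + 1)) ^ n := by
      have h2 : N ≤ (m + (A₀ + 1)) ^ n :=
        hr2.le.trans (Nat.pow_le_pow_left (by omega) n)
      exact_mod_cast h2
    have hl : 2 * ((A₀ : ℝ) + 1) * n ≤ m := by exact_mod_cast hlarge
    exact h1.trans (pow_bound (by positivity) (by linarith) rfl hl)
  have hE : α * n + T + 2 ≤ c' * u := by
    have h1 : α * n ≤ α * (β * u) + α := by
      have := mul_le_mul_of_nonneg_left hn2 hα.le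
      linarith
    linarith
  -- conclusion
  have hfin : (N : ℝ) * 2 ^ (-(α * n + T + 2)) ≤ ((2 : ℝ) ^ (-α) * m) ^ n * ((M : ℝ) * 2 ^ (-T))
      / (2 * (M : ℝ)) := by
    have e1 : ((2 : ℝ) ^ (-α) * m) ^ n * ((M : ℝ) * 2 ^ (-T)) / (2 * (M : ℝ))
        = (m : ℝ) ^ n * 2 ^ (-(α * n + T + 1)) := by
      have e2 : ((2 : ℝ) ^ (-α)) ^ n = 2 ^ (-(α * n)) := by
        rw [← Real.rpow_natCast, ← Real.rpow_mul (by norm_num)]
        congr 1
        ring
      have e3 : (2 : ℝ) ^ (-(α * n + T + 1)) = 2 ^ (-(α * n)) * 2 ^ (-T) / 2 := by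
        have : -(α * n + T + 1) = -(α * n) + -T + -1 := by ring
        rw [this, Real.rpow_add (by norm_num), Real.rpow_add (by norm_num), Real.rpow_neg_one]
        ring
      rw [mul_pow, e2, e3]
      field_simp
    rw [e1]
    have e4 : (2 : ℝ) ^ (-(α * n + T + 2)) = 2 ^ (-(α * n + T + 1)) / 2 := by
      have : -(α * n + T + 2) = -(α * n + T + 1) + -1 := by ring
      rw [this, Real.rpow_add (by norm_num), Real.rpow_neg_one]
      ring
    rw [e4]
    have hpos : (0 : ℝ) < 2 ^ (-(α * n + T + 1)) := by positivity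
    calc (N : ℝ) * (2 ^ (-(α * n + T + 1)) / 2)
        ≤ (2 * (m : ℝ) ^ n) * (2 ^ (-(α * n + T + 1)) / 2) :=
          mul_le_mul_of_nonneg_right hN2 (by positivity)
      _ = (m : ℝ) ^ n * 2 ^ (-(α * n + T + 1)) := by ring
  have hexp : (2 : ℝ) ^ (-(c' * u)) ≤ 2 ^ (-(α * n + T + 2)) :=
    Real.rpow_le_rpow_of_exponent_le (by norm_num) (by linarith)
  calc (N : ℝ) * 2 ^ (-(c' * u)) ≤ (N : ℝ) * 2 ^ (-(α * n + T + 2)) :=
        mul_le_mul_of_nonneg_left hexp (by linarith)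
    _ ≤ _ := hfin
    _ ≤ _ := hA4


set_option maxHeartbeats 1000000 in
/-- One step of the density recursion. -/
theorem dens_step {j D L : ℕ} {α E : ℝ} (hj : 1 ≤ j) (hα : 0 < α) (hE : 0 < E) (hL : 2 * D < L)
    (hDens : Dens j E (2 * D) L) (hFam : DigitFamily α D L) :
    Dens (j + 1) (2 * α * E) D L := by
  intro c' hc'
  obtain ⟨A₀, r₀, hfam⟩ := hFam
  have hJ : (0 : ℝ) < j := by exact_mod_cast hj
  have hJ1 : (1 : ℝ) ≤ j := by exact_mod_cast hj
  have hJ2 : (0 : ℝ) < ((j + 1 : ℕ) : ℝ) := by positivity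
  set Y : ℝ := (2 * α * E) ^ ((1 : ℝ) / ((j + 1 : ℕ) : ℝ)) with hY
  have hY0 : 0 < Y := by positivity
  have hYpow : Y ^ (j + 1) = 2 * α * E := by
    rw [hY, ← Real.rpow_natCast, ← Real.rpow_mul (by positivity)]
    have : (1 : ℝ) / ((j + 1 : ℕ) : ℝ) * ((j + 1 : ℕ) : ℝ) = 1 := by field_simp
    rw [this, Real.rpow_one]
  set β : ℝ := Y / α with hβdef
  have hβ : 0 < β := by positivity
  have hαβ : α * β = Y := by
    rw [hβdef]
    field_simp
  set G : ℝ := E ^ ((1 : ℝ) / j) with hG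
  have hG0 : 0 < G := by positivity
  have hGpow : G ^ j = E := by
    rw [hG, ← Real.rpow_natCast, ← Real.rpow_mul hE.le]
    have : (1 : ℝ) / (j : ℝ) * (j : ℝ) = 1 := by field_simp
    rw [this, Real.rpow_one]
  set Z : ℝ := (2 / β) ^ ((1 : ℝ) / j) with hZ
  have hZ0 : 0 < Z := by positivity
  have hZpow : Z ^ j = 2 / β := by
    rw [hZ, ← Real.rpow_natCast, ← Real.rpow_mul (by positivity)]
    have : (1 : ℝ) / (j : ℝ) * (j : ℝ) = 1 := by field_simp
    rw [this, Real.rpow_one]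
  have hZG : Z * G = Y := by
    have h1 : (Z * G) ^ j = Y ^ j := by
      rw [mul_pow, hZpow, hGpow]
      have h2 : Y * Y ^ j = 2 * α * E := by
        rw [← hYpow]; ring
      have h3 : 2 / β * E = (2 * α * E) / Y := by
        rw [hβdef]
        field_simp
      rw [h3, ← h2]
      field_simp
    exact (pow_left_inj₀ (by positivity) (by positivity) (by omega)).1 h1
  set ε : ℝ := c' - ((j + 1 : ℕ) : ℝ) * Y with hε
  have hε0 : 0 < ε := by
    rw [hε]
    linarith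
  set η : ℝ := min 1 (ε / (6 * j * Y)) with hη
  have hη0 : 0 < η := lt_min one_pos (by positivity)
  have hη1 : η ≤ 1 := min_le_left _ _
  have hη2 : 3 * η * j * Y ≤ ε / 2 := by
    have h1 : η ≤ ε / (6 * j * Y) := min_le_right _ _
    rw [le_div_iff₀ (by positivity)] at h1
    linarith
  set c : ℝ := j * G * (1 + η) with hc
  have hc0 : 0 ≤ c := by positivity
  have hclt : (j : ℝ) * E ^ ((1 : ℝ) / j) < c := by
    rw [hc, ← hG]
    have : 0 < (j : ℝ) * G * η := by positivity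
    nlinarith
  obtain ⟨M₀, hM₀⟩ := hDens c hclt
  have hAp : (0 : ℝ) < 2 * ((A₀ : ℝ) + 1) * β := by positivity
  -- eventual conditions on `u`
  have Ea : ∀ᶠ u : ℝ in atTop, max 1 (1 / β) ≤ u := eventually_ge_atTop _
  have Eb := log_small β 1 (η * (2 / β)) hβ (by positivity)
  have Ec : ∀ᶠ u : ℝ in atTop, (α + 2) / (ε / 2) ≤ u := eventually_ge_atTop _
  have Ed1 : ∀ᶠ u : ℝ in atTop, 2 * β * logb 2 ((r₀ : ℝ) + 1) ≤ u := eventually_ge_atTop _
  have Ed2 : ∀ᶠ u : ℝ in atTop, 2 * β * logb 2 ((M₀ : ℝ) + A₀ + 1) ≤ u := eventually_ge_atTop _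
  have Ed3 := log_small (2 * ((A₀ : ℝ) + 1) * β) (2 * ((A₀ : ℝ) + 1) + A₀ + 1) (1 / (2 * β)) hAp
    (by positivity)
  have hut : Tendsto (fun N : ℕ => (logb 2 (N : ℝ)) ^ ((1 : ℝ) / ((j + 1 : ℕ) : ℝ))) atTop atTop := by
    apply (tendsto_rpow_atTop (by positivity)).comp
    exact (Real.tendsto_logb_atTop (by norm_num)).comp tendsto_natCast_atTop_atTop
  have E0 : ∀ᶠ N : ℕ in atTop, 1 ≤ N := eventually_ge_atTop 1
  obtain ⟨N₀, hN₀⟩ := eventually_atTop.1 (E0.and ((hut.eventually Ea).and ((hut.eventually Eb).and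
    ((hut.eventually Ec).and ((hut.eventually Ed1).and ((hut.eventually Ed2).and
      (hut.eventually Ed3)))))))
  refine ⟨N₀, fun N hN => ?_⟩
  obtain ⟨hN1, ea, eb, ec, ed1, ed2, ed3⟩ := hN₀ N hN
  set Λ : ℝ := logb 2 (N : ℝ) with hΛdef
  have hNr : (1 : ℝ) ≤ N := by exact_mod_cast hN1
  have hΛ0 : 0 ≤ Λ := logb_two_nonneg hNr
  set u : ℝ := Λ ^ ((1 : ℝ) / ((j + 1 : ℕ) : ℝ)) with hu
  have hupow : Λ = u ^ (j + 1) := by
    rw [hu, ← Real.rpow_natCast, ← Real.rpow_mul hΛ0]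
    have : (1 : ℝ) / ((j + 1 : ℕ) : ℝ) * ((j + 1 : ℕ) : ℝ) = 1 := by field_simp
    rw [this, Real.rpow_one]
  have hu1 : 1 ≤ u := (le_max_left _ _).trans ea
  have hu0 : 0 < u := by linarith
  have hβu : 1 ≤ β * u := by
    have : 1 / β ≤ u := (le_max_right _ _).trans ea
    rw [div_le_iff₀ hβ] at this
    linarith
  set n : ℕ := ⌈β * u⌉₊ with hn
  have hn1 : β * u ≤ n := Nat.le_ceil _
  have hn2 : (n : ℝ) ≤ β * u + 1 := (Nat.ceil_lt_add_one (by positivity)).le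
  have hn0 : 1 ≤ n := by
    have : 0 < n := Nat.ceil_pos.2 (by positivity)
    omega
  obtain ⟨r, hr0, hr1, hr2⟩ := exists_root hN1 hn0
  set X : ℝ := (2 : ℝ) ^ (u / (2 * β)) with hX
  have hX0 : 0 < X := by positivity
  -- `r + 1` is large
  have hrX : X < (r : ℝ) + 1 := by
    have h1 : (N : ℝ) < ((r : ℝ) + 1) ^ n := by exact_mod_cast hr2
    have h2 : Λ < n * logb 2 ((r : ℝ) + 1) := by
      rw [hΛdef, ← Real.logb_pow]
      exact Real.logb_lt_logb (by norm_num) (by linarith) h1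
    have h3 : (r : ℝ) + 1 ≠ 0 := by positivity
    have hl0 : 0 ≤ logb 2 ((r : ℝ) + 1) := logb_two_nonneg (by
      have : (0 : ℝ) ≤ r := by positivity
      linarith)
    have h4 : (n : ℝ) ≤ 2 * (β * u) := by linarith
    have h5 : u ^ (j + 1) < 2 * (β * u) * logb 2 ((r : ℝ) + 1) := by
      rw [← hupow]
      exact lt_of_lt_of_le h2 (mul_le_mul_of_nonneg_right h4 hl0)
    have h6 : u ≤ u ^ j := by
      calc u = u ^ 1 := (pow_one u).symm
        _ ≤ u ^ j := pow_le_pow_right₀ hu1 hj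
    have h7 : u * u < u * (2 * β * logb 2 ((r : ℝ) + 1)) := by
      have h8 : u * u ≤ u ^ (j + 1) := by
        calc u * u ≤ u * u ^ j := mul_le_mul_of_nonneg_left h6 hu0.le
          _ = u ^ (j + 1) := by ring
      have h9 : 2 * (β * u) * logb 2 ((r : ℝ) + 1) = u * (2 * β * logb 2 ((r : ℝ) + 1)) := by ring
      linarith
    have h8 : u < 2 * β * logb 2 ((r : ℝ) + 1) := lt_of_mul_lt_mul_left h7 hu0.le
    have h9 : u / (2 * β) < logb 2 ((r : ℝ) + 1) := by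
      rw [div_lt_iff₀ (by positivity)]
      linarith
    have h10 : X < (2 : ℝ) ^ logb 2 ((r : ℝ) + 1) :=
      Real.rpow_lt_rpow_of_exponent_lt (by norm_num) h9
    rwa [Real.rpow_logb (by norm_num) (by norm_num) (by positivity)] at h10
  have toX : ∀ {x : ℝ}, 0 < x → 2 * β * logb 2 x ≤ u → x ≤ X := by
    intro x hx h
    rw [hX, ← Real.logb_le_iff_le_rpow (by norm_num) hx, le_div_iff₀ (by positivity)]
    linarith
  have hXr₀ : (r₀ : ℝ) + 1 ≤ X := toX (by positivity) ed1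
  have hXM₀ : (M₀ : ℝ) + A₀ + 1 ≤ X := toX (by positivity) ed2
  have hXA : 2 * ((A₀ : ℝ) + 1) * β * u + (2 * ((A₀ : ℝ) + 1) + A₀ + 1) ≤ X := by
    rw [hX, ← Real.logb_le_iff_le_rpow (by norm_num) (by positivity)]
    have : u / (2 * β) = 1 / (2 * β) * u := by ring
    rw [this]
    exact ed3
  have hrr₀ : r₀ ≤ r := by
    have : (r₀ : ℝ) < r := by linarith
    exact_mod_cast this.le
  obtain ⟨m, S, hrm, hmr, hm0, hS, hgood, hSc⟩ := hfam r hrr₀
  have hmX : X < (m : ℝ) + A₀ + 1 := by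
    have : (r : ℝ) ≤ (m : ℝ) + A₀ := by exact_mod_cast hrm
    linarith
  have hlarge : 2 * (A₀ + 1) * n ≤ m := by
    have h1 : 2 * ((A₀ : ℝ) + 1) * n ≤ m := by
      have h2 : 2 * ((A₀ : ℝ) + 1) * n ≤ 2 * ((A₀ : ℝ) + 1) * (β * u + 1) :=
        mul_le_mul_of_nonneg_left hn2 (by positivity)
      have h3 : 2 * ((A₀ : ℝ) + 1) * (β * u + 1) = 2 * ((A₀ : ℝ) + 1) * β * u + 2 * ((A₀ : ℝ) + 1) := by
        ring
      linarith
    exact_mod_cast h1
  set M : ℕ := n * m ^ 2 with hM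
  have hM₀M : M₀ ≤ M := by
    have h1 : (M₀ : ℝ) < m := by linarith
    have h2 : M₀ ≤ m := by exact_mod_cast h1.le
    have h3 : m ≤ m ^ 2 := by nlinarith
    have h4 : m ^ 2 ≤ n * m ^ 2 := Nat.le_mul_of_pos_left _ hn0
    omega
  obtain ⟨B, hB1, hB2, hB3⟩ := hM₀ M hM₀M
  have htarget : α * (β * u) + α + c * (((1 + η) * (2 / β)) ^ ((1 : ℝ) / j) * u) + 2 ≤ c' * u := by
    have h1 : ((1 + η) * (2 / β)) ^ ((1 : ℝ) / j) ≤ (1 + η) * Z := by
      rw [Real.mul_rpow (by positivity) (by positivity), ← hZ]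
      apply mul_le_mul_of_nonneg_right _ hZ0.le
      have h2 : (1 + η) ^ ((1 : ℝ) / j) ≤ (1 + η) ^ (1 : ℝ) := by
        apply Real.rpow_le_rpow_of_exponent_le (by linarith)
        rw [div_le_one hJ]
        exact hJ1
      rwa [Real.rpow_one] at h2
    have h2 : c * (((1 + η) * (2 / β)) ^ ((1 : ℝ) / j) * u) ≤ c * ((1 + η) * Z * u) := by
      apply mul_le_mul_of_nonneg_left _ hc0
      exact mul_le_mul_of_nonneg_right h1 hu0.le
    have h3 : c * ((1 + η) * Z * u) = j * Y * (1 + η) ^ 2 * u := by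
      rw [hc, ← hZG]
      ring
    have h4 : (1 + η) ^ 2 ≤ 1 + 3 * η := by nlinarith
    have h5 : j * Y * (1 + η) ^ 2 * u ≤ j * Y * (1 + 3 * η) * u := by
      apply mul_le_mul_of_nonneg_right _ hu0.le
      exact mul_le_mul_of_nonneg_left h4 (by positivity)
    have h6 : α + 2 ≤ ε / 2 * u := by
      have := (div_le_iff₀ (by positivity : 0 < ε / 2)).1 ec
      linarith
    have h7 : α * (β * u) = Y * u := by
      rw [← hαβ]; ring
    have h8 : c' = ((j + 1 : ℕ) : ℝ) * Y + ε := by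
      rw [hε]; ring
    have h9 : 3 * η * j * Y * u ≤ ε / 2 * u := mul_le_mul_of_nonneg_right hη2 hu0.le
    rw [h8, h7]
    push_cast
    nlinarith
  exact det_step hj hL hN1 hα hc0 hβ hη0.le hu1 hupow hn1 hn2 hn0 hr1 hr2 hmr hrm hm0 hS hgood hSc
    hM hB1 hB2 hB3 hlarge eb htarget

end Vale.Agent.Lib.P057
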