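import Mathlib
import Vale.Agent.Lib.P057.Recursion

namespace Vale.Agent.Lib.P057

open Finset Filter Real Polynomial

/-- The chain of cube levels. -/
lemma chain (n : ℕ) (hn : 2 ≤ n) : ∀ i : ℕ, i ≤ n - 2 →
    Dens (i + 1) ((2 : ℝ) ^ ((i : ℝ) * (2 * n - 1 - i) / 2)) (2 ^ (n - 1 - i)) (2 ^ (n - 1) + 1) := by
  intro i
  induction i with
  | zero =>
    intro _
    have h := dens_base (2 ^ (n - 1 - 0)) (2 ^ (n - 1) + 1)
    simpa using h
  | succ i ih =>
    intro hi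
    have hIH := ih (by omega)
    have e1 : n - 1 - i = (n - 1 - (i + 1)) + 1 := by omega
    have hIH' : Dens (i + 1) ((2 : ℝ) ^ ((i : ℝ) * (2 * n - 1 - i) / 2))
        (2 * 2 ^ (n - 1 - (i + 1))) (2 ^ (n - 1) + 1) := by
      rw [← pow_succ', ← e1]
      exact hIH
    have hlt : 2 * 2 ^ (n - 1 - (i + 1)) < 2 ^ (n - 1) + 1 := by
      rw [← pow_succ', ← e1]
      have : 2 ^ (n - 1 - i) ≤ 2 ^ (n - 1) := Nat.pow_le_pow_right (by norm_num) (by omega)
      omega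
    have hfam := cube_family (2 ^ (n - 1 - (i + 1))) (2 ^ (n - 1) + 1)
    have hstep := dens_step (j := i + 1) (E := (2 : ℝ) ^ ((i : ℝ) * (2 * n - 1 - i) / 2))
      (by omega) (by positivity) (by positivity) hlt hIH' hfam
    have e2 : (2 : ℝ) * ((2 ^ (n - 1 - (i + 1)) : ℕ) : ℝ) * (2 : ℝ) ^ ((i : ℝ) * (2 * n - 1 - i) / 2)
        = (2 : ℝ) ^ (((i + 1 : ℕ) : ℝ) * (2 * n - 1 - ((i + 1 : ℕ) : ℝ)) / 2) := by
      have e3 : ((n - 1 - (i + 1) : ℕ) : ℝ) = (n : ℝ) - 2 - i := by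
        have h1 : n - 1 - (i + 1) + (i + 2) = n := by omega
        have h2 : ((n - 1 - (i + 1) + (i + 2) : ℕ) : ℝ) = (n : ℝ) := by rw [h1]
        push_cast at h2
        linarith
      have e4 : (2 : ℝ) * ((2 ^ (n - 1 - (i + 1)) : ℕ) : ℝ) = (2 : ℝ) ^ ((n : ℝ) - 1 - i) := by
        push_cast
        rw [← Real.rpow_natCast 2 (n - 1 - (i + 1)), e3, ← Real.rpow_one_add' (by norm_num) (by
          intro h0
          have h1 : (n : ℝ) = i + 1 := by linarith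
          have h2 : (n : ℝ) ≥ i + 3 := by
            have : n ≥ i + 3 := by omega
            exact_mod_cast this
          linarith)]
        congr 1
        ring
      rw [e4, ← Real.rpow_add (by norm_num)]
      congr 1
      push_cast
      ring
    rw [e2] at hstep
    exact hstep

/-- The final level, with the digit set of density `7/12`. -/
lemma final_dens (n : ℕ) (hn : 3 ≤ n) :
    Dens n (Real.logb 2 (12 / 7) * (2 : ℝ) ^ ((n : ℝ) * (n - 1) / 2)) 1 (2 ^ (n - 1) + 1) := by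
  have hκ : 0 < Real.logb 2 (12 / 7 : ℝ) :=
    Real.logb_pos (by norm_num) (by norm_num)
  have h := chain n (by omega) (n - 2) le_rfl
  have e1 : n - 1 - (n - 2) = 1 := by omega
  have e2 : n - 2 + 1 = n - 1 := by omega
  rw [e1, pow_one, e2] at h
  have hL5 : 5 ≤ 2 ^ (n - 1) + 1 := by
    have : 2 ^ 2 ≤ 2 ^ (n - 1) := Nat.pow_le_pow_right (by norm_num) (by omega)
    omega
  have hfam := shape_family hL5
  have hlt : 2 * 1 < 2 ^ (n - 1) + 1 := by omega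
  have hstep := dens_step (j := n - 1) (D := 1) (L := 2 ^ (n - 1) + 1)
    (E := (2 : ℝ) ^ (((n - 2 : ℕ) : ℝ) * (2 * n - 1 - ((n - 2 : ℕ) : ℝ)) / 2))
    (by omega) hκ (by positivity) hlt h hfam
  have e3 : n - 1 + 1 = n := by omega
  rw [e3] at hstep
  have e4 : 2 * Real.logb 2 (12 / 7) * (2 : ℝ) ^ (((n - 2 : ℕ) : ℝ) * (2 * n - 1 - ((n - 2 : ℕ) : ℝ)) / 2)
      = Real.logb 2 (12 / 7) * (2 : ℝ) ^ ((n : ℝ) * (n - 1) / 2) := by
    have h2 : ((n - 2 : ℕ) : ℝ) = (n : ℝ) - 2 := by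
      have h3 : ((n - 2 + 2 : ℕ) : ℝ) = (n : ℝ) := by
        rw [Nat.sub_add_cancel (by omega)]
      push_cast at h3
      linarith
    rw [h2]
    have h3 : (n : ℝ) * (n - 1) / 2 = 1 + ((n : ℝ) - 2) * (2 * n - 1 - ((n : ℝ) - 2)) / 2 := by
      ring
    rw [h3, Real.rpow_add (by norm_num), Real.rpow_one]
    ring
  rw [e4] at hstep
  exact hstep

/-- The main theorem for all lengths. -/
theorem main_all (n k : ℕ) (hn : 3 ≤ n) (hk : 2 ^ (n - 1) < k) (c : ℝ)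
    (hc : (n : ℝ) * 2 ^ (((n : ℝ) - 1) / 2) * (Real.logb 2 (12 / 7)) ^ ((1 : ℝ) / n) < c) :
    ∃ N₀ : ℕ, ∀ N : ℕ, N₀ ≤ N → ∃ A : Finset ℕ, A ⊆ Finset.Icc 1 N ∧
      (∀ a d : ℕ, 0 < d → ¬ ∀ i < k, a + i * d ∈ A) ∧
      (N : ℝ) * 2 ^ (-(c * (Real.logb 2 N) ^ ((1 : ℝ) / n))) ≤ A.card := by
  have hκ : 0 < Real.logb 2 (12 / 7 : ℝ) :=
    Real.logb_pos (by norm_num) (by norm_num)
  have hn0 : (0 : ℝ) < n := by
    have : 0 < n := by omega
    exact_mod_cast this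
  have hconst : (n : ℝ) * (Real.logb 2 (12 / 7) * (2 : ℝ) ^ ((n : ℝ) * (n - 1) / 2)) ^ ((1 : ℝ) / n) < c := by
    have e1 : (Real.logb 2 (12 / 7) * (2 : ℝ) ^ ((n : ℝ) * (n - 1) / 2)) ^ ((1 : ℝ) / n)
        = (Real.logb 2 (12 / 7)) ^ ((1 : ℝ) / n) * 2 ^ (((n : ℝ) - 1) / 2) := by
      rw [Real.mul_rpow hκ.le (by positivity), ← Real.rpow_mul (by norm_num)]
      congr 2
      field_simp
    rw [e1]
    calc (n : ℝ) * ((Real.logb 2 (12 / 7)) ^ ((1 : ℝ) / n) * 2 ^ (((n : ℝ) - 1) / 2))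
        = (n : ℝ) * 2 ^ (((n : ℝ) - 1) / 2) * (Real.logb 2 (12 / 7)) ^ ((1 : ℝ) / n) := by ring
      _ < c := hc
  obtain ⟨N₀, hN₀⟩ := final_dens n hn c hconst
  refine ⟨N₀, fun N hN => ?_⟩
  obtain ⟨B, hB1, hB2, hB3⟩ := hN₀ N hN
  refine ⟨B.image (· + 1), ?_, ?_, ?_⟩
  · intro x hx
    obtain ⟨y, hy, rfl⟩ := mem_image.1 hx
    have := mem_range.1 (hB1 hy)
    simp only [mem_Icc]
    omega
  · intro a d hd hall
    have hL2 : 2 ≤ 2 ^ (n - 1) + 1 := by
      have : 1 ≤ 2 ^ (n - 1) := Nat.one_le_two_pow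
      omega
    have hmem : ∀ i < 2 ^ (n - 1) + 1, a + i * d - 1 ∈ B ∧ 1 ≤ a + i * d := by
      intro i hi
      obtain ⟨y, hy, hya⟩ := mem_image.1 (hall i (by omega))
      have e : a + i * d - 1 = y := by
        omega
      rw [e]
      refine ⟨hy, ?_⟩
      omega
    have ha1 : 1 ≤ a := by
      have := (hmem 0 (by omega)).2
      simpa using this
    have hprog : IsPolyProg 1 (2 ^ (n - 1) + 1) (fun i => ((a + i * d - 1 : ℕ) : ℤ)) := by
      refine ⟨C (d : ℚ) * X + C ((a : ℚ) - 1), ?_, fun i hi => ?_⟩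
      · exact natDegree_linear_le
      · have h1 : ((a + i * d - 1 : ℕ) : ℤ) = (a : ℤ) + i * d - 1 := by
          have : a + i * d - 1 + 1 = a + i * d := Nat.sub_add_cancel (by omega)
          have h2 : ((a + i * d - 1 + 1 : ℕ) : ℤ) = ((a + i * d : ℕ) : ℤ) := by rw [this]
          push_cast at h2 ⊢
          linarith
        simp only [h1]
        simp
        ring
    have h := hB2 (fun i => a + i * d - 1) (fun i hi => (hmem i hi).1) hprog 1 (by omega)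
    simp only [one_mul, zero_mul, add_zero] at h
    omega
  · rw [Finset.card_image_of_injective _ (add_left_injective 1)]
    exact hB3

end Vale.Agent.Lib.P057
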